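import Vale.Agent.P057PC.Split
import Mathlib.MeasureTheory.Integral.Average

/-! A lattice Gaussian at a random centre of the unit cube has mass one on average. -/

set_option linter.all false

open MeasureTheory Matrix Finset Filter
open scoped Real
open Vale.Agent.P267.H775 Vale.Agent.P057G Vale.Agent.P057PC

namespace Vale.Agent.P057AD

noncomputable section

variable {K : Type} [Fintype K] [DecidableEq K] {A : Matrix K K ℝ}

theorem continuous_th (hA : A.PosDef) : Continuous (th A) := by
  rw [show th A = _ from funext fun x => (poisson_re hA x).tsum_eq.symm]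
  refine continuous_tsum (fun k => by fun_prop) ((summable_gs hA.inv 0).mul_left (vol A))
    fun k x => ?_
  rw [sub_zero, norm_mul, Real.norm_of_nonneg (mul_nonneg (vol_pos hA).le (gs_pos _ _).le)]
  exact mul_le_of_le_one_right (mul_nonneg (vol_pos hA).le (gs_pos _ _).le)
    (Real.abs_cos_le_one _)

theorem hasSum_box (hA : A.PosDef) (c : K → ℝ) :
    HasSum (fun n : K → ℤ => ∫ x in box (0 : K → ℤ), gs A (toR n - (c + x))) (vol A) := by
  have h1 := hasSum_integral_iUnion measurableSet_box pairwise_disjoint_box
    (integrable_gs_sub hA (-c)).integrableOn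
  rw [iUnion_box, setIntegral_univ, integral_gs_sub hA] at h1
  refine (Equiv.neg _).hasSum_iff.1 (h1.congr_fun fun n => ?_)
  have h2 := integral_box (fun x => (gs A (-c - x) : ℂ)) n
  rw [integral_complex_ofReal, integral_complex_ofReal, Complex.ofReal_inj] at h2
  rw [h2]
  simp only [Function.comp, Equiv.neg_apply, toR_neg]
  congr 1
  funext x
  congr 1
  abel

theorem integrableOn_box {f : (K → ℝ) → ℝ} (hf : Continuous f) :
    IntegrableOn f (box (0 : K → ℤ)) :=
  (hf.continuousOn.integrableOn_compact (cube K).isCompact).mono_set box_subset_cube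

theorem integral_th (hA : A.PosDef) (c : K → ℝ) :
    ∫ x in box (0 : K → ℤ), th A (c + x) = vol A := by
  have h := hasSum_box hA c
  rw [← h.tsum_eq]
  refine (integral_tsum_of_summable_integral_norm (fun n => integrableOn_box ?_) ?_).symm
  · exact (continuous_gs A).comp (by fun_prop)
  · simpa only [Real.norm_of_nonneg (gs_pos _ _).le] using h.summable

/-- one centre is as good as the average -/
theorem exists_cen (hA : A.PosDef) {Ω : Type} [Countable Ω] {a : Ω → ℝ} (ha : Summable a)
    (c : Ω → K → ℝ) : ∃ x : K → ℝ, (∀ k, |x k| ≤ 1) ∧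
      ∑' y, a y ≤ ∑' y, a y * (th A (c y + x) / vol A) := by
  have hv := vol_pos hA
  have hc : ∀ y, Continuous fun x => a y * (th A (c y + x) / vol A) := fun y =>
    continuous_const.mul (((continuous_th hA).comp (by fun_prop)).div_const _)
  have hn : ∀ y x, ‖a y * (th A (c y + x) / vol A)‖ = |a y| * (th A (c y + x) / vol A) :=
    fun y x => by rw [norm_mul, Real.norm_of_nonneg (div_nonneg (th_nonneg _ _) hv.le)]; rfl
  have hi : ∀ y (r : ℝ), ∫ x in box (0 : K → ℤ), r * (th A (c y + x) / vol A) = r := fun y r => by
    rw [integral_const_mul, integral_div, integral_th hA, div_self hv.ne', mul_one]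
  have h1 : Continuous fun x => ∑' y, a y * (th A (c y + x) / vol A) :=
    continuous_tsum hc (ha.abs.mul_right (th A 0 / vol A)) fun y x => by
      rw [hn]
      exact mul_le_mul_of_nonneg_left (div_le_div_of_nonneg_right (th_le_th_zero hA _) hv.le)
        (abs_nonneg _)
  have h2 := integral_tsum_of_summable_integral_norm (μ := volume.restrict (box (0 : K → ℤ)))
    (fun y => integrableOn_box (hc y)) (by simpa only [hn, hi] using ha.abs)
  haveI : IsProbabilityMeasure (volume.restrict (box (0 : K → ℤ))) := ⟨by
    rw [Measure.restrict_apply_univ, box_eq_pi, Real.volume_pi_Ioc]; simp⟩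
  obtain ⟨x, hx, h3⟩ := exists_notMem_null_integral_le (integrableOn_box h1)
    (N := (box (0 : K → ℤ))ᶜ) (by rw [Measure.restrict_apply' (measurableSet_box _)]; simp)
  refine ⟨x, fun k => ?_, ?_⟩
  · have h4 := box_subset_cube (not_not.1 hx)
    exact abs_le.2 ⟨le_trans (by norm_num) (h4.1 k), h4.2 k⟩
  · simpa only [← h2, hi] using h3

/-- sums over a product of two lattices -/
theorem tsum_sum_elim {L : Type} {g : (L ⊕ K → ℤ) → ℝ} (hg : Summable g) :
    ∑' z, g z = ∑' y : L → ℤ, ∑' n : K → ℤ, g (Sum.elim y n) := by
  rw [← (Equiv.sumArrowEquivProdArrow L K ℤ).symm.tsum_eq]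
  exact ((Equiv.sumArrowEquivProdArrow L K ℤ).symm.summable_iff.2 hg).tsum_prod

end

end Vale.Agent.P057AD
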