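import Vale.Agent.P057AD.Lab
import Vale.Agent.P057AD.Mix

/-! New coordinates at random centres. -/

set_option linter.all false

open Matrix Finset MvPolynomial
open Vale.Agent.P267.H775 Vale.Agent.P057G Vale.Agent.P057PC Vale.Agent.P057TP Vale.Agent.P057ST

namespace Vale.Agent.P057AD

noncomputable section

theorem er_equiv {L K : Type} [Fintype L] [DecidableEq L] [Fintype K] [DecidableEq K] (e : K ≃ L)
    {G : Matrix L L ℝ} {G' : Matrix K K ℝ} {p : (L → ℤ) → L → ℝ} {p' : (K → ℤ) → K → ℝ}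
    {f : (L → ℤ) → ℝ} {f' : (K → ℤ) → ℝ} (hG : ∀ i j, G' i j = G (e i) (e j))
    (hp : ∀ z i, p' (z ∘ e) i = p z (e i)) (hf : ∀ z, f' (z ∘ e) = f z) :
    Er G' p' f' = Er G p f := by
  have := Ex_equiv e hG hp (f := fun z => f z) (f' := fun z => f' z) fun z => by rw [hf]
  rw [Ex_er, Ex_er] at this
  exact_mod_cast this

variable {D W S : Type} [Fintype W] [DecidableEq W] [Fintype S] {cl : W → D} {m : ℕ} {T : Tow}
  {s : ℕ} {N : ℝ} {K : Type} [Fintype K] [DecidableEq K] {lk : K → ℕ}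
  {Q : K → MvPolynomial T.ι ℝ} {Gk : Matrix K K ℝ} {Z : Sys T W S}

/-- the polynomials of all coordinates in the old variables -/
def fam0 (Z : Sys T W S) (lk : K → ℕ) (Q : K → MvPolynomial T.ι ℝ) :
    Fam ℝ (T.ι ⊕ K) T.ι W S :=
  ⟨fun o => Sum.elim (Z.fam.fn o) fun k =>
    bind₁ (fun b => if T.lv b = lk k then Z.fam.fn o b else X b) (map C (Q k))⟩

/-- the old coordinates -/
def jl (Q : K → MvPolynomial T.ι ℝ) (Gk : Matrix K K ℝ) : T.ι → (T.add K lk Q Gk).ι := Sum.inl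

theorem fn_add (c : Lb (T.add K lk Q Gk) cl S m → ℝ) (o : Option S) (a : (T.add K lk Q Gk).ι) :
    (Z.add K lk Q Gk c).fam.fn o a =
      C (lift c o a) + rename (jl Q Gk) ((fam0 Z lk Q).fn o a) := by
  cases a <;> rfl

theorem ok_fam0 (hZ : Z.Ok) (h2 : ∀ k, (Q k).IsWeightedHomogeneous T.lv (lk k)) :
    (fam0 Z lk Q).Ok (Sum.elim T.lv lk) T.lv := by
  refine ⟨?_, ?_⟩
  · rintro o (a | k)
    · exact hZ.fam.hom o a
    · refine JH.bind (JH.of_hom (h2 k)) fun b => ?_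
      split_ifs
      exacts [hZ.fam.hom o b, JH.X _ b]
  · rintro t (a | k)
    · exact hZ.fam.pure t a
    · simp only [fam0, Sum.elim_inr, map_bind₁, apply_ite (MvPolynomial.map kt), hZ.fam.pure]

theorem top_fam0 (hZ : Z.Ok) (a : (T.add K lk Q Gk).ι) :
    rename (jl Q Gk) ((fam0 Z lk Q).top a) = (T.add K lk Q Gk).q a := by
  rcases a with a | k
  · exact congrArg _ (hZ.top a)
  · have e : (constantCoeff : Lam ℝ W →+* ℝ).comp C = RingHom.id ℝ := RingHom.ext fun r => by simp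
    have h : ∀ b, map constantCoeff (Z.fam.fn none b) = T.q b := hZ.top
    refine congrArg _ ?_
    simp only [Fam.top, fam0, Sum.elim_inr, map_bind₁, apply_ite (MvPolynomial.map constantCoeff),
      h, map_X, MvPolynomial.map_map, e, MvPolynomial.map_id]

theorem ok_sys (hT : ∀ a, 0 < (T.add K lk Q Gk).lv a) (hZ : Z.Ok)
    (h2 : ∀ k, (Q k).IsWeightedHomogeneous T.lv (lk k)) (c : Lb (T.add K lk Q Gk) cl S m → ℝ) :
    (Z.add K lk Q Gk c).Ok := by
  have h := ok_fam0 hZ h2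
  refine ⟨⟨fun o a => ?_, fun t a => ?_⟩, fun a => ?_⟩
  · rw [fn_add]
    exact JH.add (JH.C (lift_hom c o a)) (JH.rename (h.hom o a) fun _ => rfl)
  · rw [fn_add, fn_add]
    have h1 := kt_lift c (some t) a
    have h3 := h.pure t a
    simp only [map_add, map_C, map_rename, h1, h3]
  · rw [← top_fam0 hZ, Fam.top, fn_add]
    have h1 := constantCoeff_lift hT c none a
    simp only [map_add, map_C, map_rename, h1, map_zero, zero_add]
    rfl

theorem eval_at (c : Lb (T.add K lk Q Gk) cl S m → ℝ) (o : Option S) (A : Finset W)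
    (a : (T.add K lk Q Gk).ι) (y : (T.add K lk Q Gk).ι → ℝ) :
    eval y ((Z.add K lk Q Gk c).fam.at' o A a) =
      pt c o A a + eval (y ∘ Sum.inl) ((fam0 Z lk Q).at' o A a) := by
  rw [Fam.at', fn_add, ← evA_lift]
  simp only [map_add, map_C, map_rename, eval_C, eval_rename]
  rfl

/-- the centres depend only on the old labels -/
theorem pr_add (c x : Lb (T.add K lk Q Gk) cl S m → ℝ) (l : Lb (T.add K lk Q Gk) cl S m) :
    (Z.add K lk Q Gk c).pr cl m x l =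
      c l + (fam0 Z lk Q).alt (pt (x ∘ il)) l.bs l.fc l.cd := by
  rw [← dlt_pt c l]
  refine Eq.trans (dlt_congr fun B _ => ?_) (dlt_add _ _ _)
  rw [funext (pt_il x l.bs B)]
  exact eval_at c _ _ _ _

theorem pt_zero {c : Lb (T.add K lk Q Gk) cl S m → ℝ} (hc : ∀ l a, l.cd = Sum.inl a → c l = 0)
    (o : Option S) (A : Finset W) (a : T.ι) : pt c o A (Sum.inl a) = 0 :=
  sum_eq_zero fun l _ => by
    split_ifs with h
    exacts [hc l a h.1, rfl]

theorem ps_il {c : Lb (T.add K lk Q Gk) cl S m → ℝ} (hc : ∀ l a, l.cd = Sum.inl a → c l = 0)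
    (z : Lb (T.add K lk Q Gk) cl S m → ℤ) (l : Lb T cl S m) :
    (Z.add K lk Q Gk c).ps cl m z (il l) = Z.ps cl m (z ∘ il) l := by
  rw [Sys.ps, Pi.sub_apply, pr_add, hc _ _ rfl, zero_add]
  rfl

theorem F_add (h : ∀ k, lk k < m) {c : Lb (T.add K lk Q Gk) cl S m → ℝ}
    (hc : ∀ l a, l.cd = Sum.inl a → c l = 0) (f : ℤ → ℝ) (z : Lb (T.add K lk Q Gk) cl S m → ℤ)
    (A : Finset W) (t : S) : (Z.add K lk Q Gk c).F cl m f z A t = Z.F cl m f (z ∘ il) A t := by
  have e : ∀ y, Sys.full cl m (z ∘ il) A t (y ∘ eqv T Q Gk h) = Sys.full cl m z A t y ∘ Sum.inl :=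
    fun y => funext fun a => by
      unfold Sys.full
      rw [pt_il]
      rfl
  rw [P057GH.F_eq, P057GH.F_eq]
  refine (er_equiv (eqv T Q Gk h) (fun a b => (G_up h a.2 b).symm) (fun y a => ?_)
    fun y => ?_).symm
  · refine Eq.trans ?_ (eval_at c _ _ (Sum.inl a.1) _).symm
    rw [pt_zero hc, zero_add, P057GH.up, e]
    rfl
  · rw [e]
    exact congrArg (fun u => f (Z.off A t + u)) (dot_inl T.el _).symm

theorem qq_gam (h4 : ∀ k k', lk k ≠ lk k' → Gk k k' = 0) (v : Lb (T.add K lk Q Gk) cl S m → ℝ) :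
    qq (Gam (T.add K lk Q Gk) cl S m) v =
      qq (Gam T cl S m) (v ∘ il) + qq (Gam (tk lk Gk) cl S m) (v ∘ ir - LL Q *ᵥ (v ∘ il)) := by
  rw [← qq_submatrix _ (eL Q), gam_add h4, qq_gad]
  rfl

theorem ng_gam (hG : T.G.PosDef) (h4 : ∀ k k', lk k ≠ lk k' → Gk k k' = 0)
    (v : Lb (T.add K lk Q Gk) cl S m → ℝ) : ng (Gam (T.add K lk Q Gk) cl S m) v =
      ng (Gam T cl S m) (v ∘ il) * ng (Gam (tk lk Gk) cl S m) (v ∘ ir - LL Q *ᵥ (v ∘ il)) := by
  rw [← ng_submatrix _ (eL Q), gam_add h4, ng_gad (P057GH.pd_Gam hG cl S m)]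
  rfl

theorem sub_add (h : ∀ k, lk k < m) (h3 : Gk.PosDef) (h4 : ∀ k k', lk k ≠ lk k' → Gk k k' = 0)
    {c : Lb (T.add K lk Q Gk) cl S m → ℝ} (hc : ∀ l a, l.cd = Sum.inl a → c l = 0) (R : ℝ) :
    Sub cl m (Z.add K lk Q Gk c) Z (Fam.ren W S Sum.inl) R 0 := by
  refine ⟨ok_ren fun _ => rfl, ?_, fun f z A _ t => ?_, fun z _ => ?_⟩
  · exact (funext (top_ren (W := W) (S := S) Sum.inl)).symm ▸ mor_add h3 m
  · exact (F_add h hc f z A t).trans (congrArg (Z.F cl m f · A t) (sub_il z).symm)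
  · refine (congrArg (Z.nrm cl m) (sub_il z)).trans_le ?_
    rw [add_zero, Sys.nrm, Sys.nrm, qq_gam h4, ← funext (ps_il hc z)]
    exact Real.sqrt_le_sqrt (le_add_of_nonneg_right
      (qq_nonneg (P057GH.pd_Gam (T := tk lk Gk) h3 cl S m).posSemidef _))

/-- the centres of the new labels over an old configuration -/
def cen (Z : Sys T W S) (Q : K → MvPolynomial T.ι ℝ) (y : Lb T cl S m → ℤ) :
    Lb (tk lk Gk) cl S m → ℝ :=
  (fun l => (fam0 Z lk Q).alt (pt (toR y)) l.bs l.fc (Sum.inr l.cd)) + LL Q *ᵥ Z.ps cl m y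

theorem w_add (hG : T.G.PosDef) (h4 : ∀ k k', lk k ≠ lk k' → Gk k k' = 0)
    {c : Lb (T.add K lk Q Gk) cl S m → ℝ} (hc : ∀ l a, l.cd = Sum.inl a → c l = 0)
    (z : Lb (T.add K lk Q Gk) cl S m → ℤ) : (Z.add K lk Q Gk c).w cl m z = Z.w cl m (z ∘ il) *
      ng (Gam (tk lk Gk) cl S m) (toR (z ∘ ir) - (cen Z Q (z ∘ il) + c ∘ ir)) := by
  have e : (Z.add K lk Q Gk c).ps cl m z ∘ il = Z.ps cl m (z ∘ il) := funext (ps_il hc z)
  rw [Sys.w, ng_gam hG h4, e]
  congr 2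
  funext l
  simp only [Sys.ps, cen, Pi.sub_apply, Pi.add_apply, Function.comp_apply, pr_add]
  exact (fun a b d u : ℝ => (by ring : a - (b + d) - u = a - (d + u + b))) _ _ _ _

/-- sums against the new weight -/
theorem tsum_add (hT : T.Ok s N) (hT' : (T.add K lk Q Gk).Ok s N) (hZ : Z.Ok)
    (h2 : ∀ k, (Q k).IsWeightedHomogeneous T.lv (lk k)) (h4 : ∀ k k', lk k ≠ lk k' → Gk k k' = 0)
    {c : Lb (T.add K lk Q Gk) cl S m → ℝ} (hc : ∀ l a, l.cd = Sum.inl a → c l = 0)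
    {g : (Lb T cl S m → ℤ) → ℝ} {B : ℝ} (hg : ∀ y, |g y| ≤ B) :
    ∑' z, (Z.add K lk Q Gk c).w cl m z * g (z ∘ il) = ∑' y, Z.w cl m y * g y *
      (th (Gam (tk lk Gk) cl S m) (cen Z Q y + c ∘ ir) / vol (Gam (tk lk Gk) cl S m)) := by
  have hs := summable_mul_real (P057GH.summable_w (cl := cl) (m := m) hT' (ok_sys hT'.pos hZ h2 c))
    (P057GH.w_nonneg _) fun z => hg (z ∘ il)
  let e := Equiv.arrowCongr (eL (cl := cl) (S := S) (m := m) (lk := lk) (Gk := Gk) Q)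
    (Equiv.refl ℤ)
  refine (e.tsum_eq _).symm.trans ((tsum_sum_elim (e.summable_iff.2 hs)).trans
    (tsum_congr fun y => ?_))
  rw [th, ← tsum_div_const, ← tsum_mul_left]
  refine tsum_congr fun n => ?_
  have h5 : e (Sum.elim y n) ∘ il = y :=
    funext fun l => congrArg (Sum.elim y n) ((eL Q).symm_apply_apply (Sum.inl l))
  have h6 : e (Sum.elim y n) ∘ ir = n :=
    funext fun l => congrArg (Sum.elim y n) ((eL Q).symm_apply_apply (Sum.inr l))
  rw [Function.comp_apply, w_add hT.pd h4 hc, h5, h6, mul_right_comm]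
  rfl

theorem add : ADD := by
  intro s N T D W S _ _ _ cl m Z H B κ σ K _ _ lk Q Gk hT hZ h1 h2 h3 h4 h5 hS
  have hT' := ok_add hT (fun k => ⟨(h1 k).1, (h1 k).2.2⟩) h2 h3 h4 h5
  have h6 := fun k => (h1 k).2.1
  have hg : ∀ y, |H y - κ| ≤ B + |κ| := fun y => (abs_sub _ _).trans (add_le_add_left (hS.1 y) _)
  obtain ⟨x, hx, h7⟩ := exists_cen (P057GH.pd_Gam (T := tk lk Gk) h3 cl S m)
    (summable_mul_real (P057GH.summable_w hT hZ) (P057GH.w_nonneg _) hg) (cen Z Q)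
  have hc : ∀ l a, l.cd = Sum.inl a → (Sum.elim (fun _ => 0) x ∘ (eL Q).symm) l = 0 := fun l a e => by
    obtain ⟨u, rfl⟩ := mem_ren (T' := T.add K lk Q Gk) (e := Sum.inl) (fun _ => rfl) e
    exact congrArg (Sum.elim (fun _ => 0) x) ((eL Q).symm_apply_apply (Sum.inl u))
  refine ⟨hT', up_add h3 h6, fun e => ⟨dm_add e, yy_add hT h3 h4 e⟩, _, fun l => ?_, hc,
    ok_sys hT'.pos hZ h2 _, sub_add h6 h3 h4 hc, fun z => hS.1 _, hS.2.trans (h7.trans_eq ?_)⟩
  · rw [Function.comp_apply]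
    rcases (eL Q).symm l with u | u
    exacts [by simp, hx u]
  · have h8 : (Sum.elim (fun _ => 0) x ∘ (eL Q).symm) ∘ ir = x :=
      funext fun l => congrArg (Sum.elim (fun _ => 0) x) ((eL Q).symm_apply_apply (Sum.inr l))
    have h9 := tsum_add hT hT' hZ h2 h4 hc hg
    rw [h8] at h9
    exact h9.symm.trans (tsum_congr fun z => congrArg (fun u => _ * (H u - κ)) (sub_il z).symm)

end

end Vale.Agent.P057AD
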