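import Vale.Agent.P057AD.Flat

/-! New coordinates in tiers at random centres. -/

set_option linter.all false

open MeasureTheory Matrix Finset MvPolynomial Filter
open Vale.Agent.P267.H775 Vale.Agent.P057G Vale.Agent.P057PC Vale.Agent.P057TP Vale.Agent.P057ST

namespace Vale.Agent.P057AD

noncomputable section

section mix

variable {K : Type} [Fintype K] [DecidableEq K] {A : Matrix K K ℝ} {lv : K → ℕ}

theorem exists_fix' {ι α : Type} [Zero α] (lv : ι → ℕ) (F : (ι → α) → ι → α)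
    (h : ∀ a y y', (∀ b, lv b < lv a → y b = y' b) → F y a = F y' a) :
    ∃! y : ι → α, ∀ a, y a = F y a := by
  let G : ∀ a, (∀ b, lv b < lv a → α) → α := fun a ih =>
    F (fun b => if h : lv b < lv a then ih b h else 0) a
  refine existsUnique_of_exists_of_unique ⟨(measure lv).wf.fix G, fun a =>
    ((measure lv).wf.fix_eq G a).trans (h a _ _ fun b hb => dif_pos hb)⟩ fun y y' k k' =>
      funext fun a => (measure lv).wf.induction (C := fun a => y a = y' a) a fun a ih => ?_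
  rw [k, k', h a y y' ih]

/-- the translates of the unit cube by the positions of a triangular system tile the space -/
theorem hasSum_tile (hA : A.PosDef) {p : (K → ℤ) → K → ℝ} (hp : Tri lv p) :
    HasSum (fun n : K → ℤ => ∫ x in box (0 : K → ℤ), gs A (toR n - (p n + x))) (vol A) := by
  let B : (K → ℤ) → Set (K → ℝ) := fun n => (fun v => toR n - p n - v) ⁻¹' box 0
  have e : ∀ v, ∃! n, v ∈ B n := fun v => by
    refine (existsUnique_congr fun n => forall_congr' fun k => ?_).1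
      (exists_fix' lv (fun n k => ⌊p n k + v k⌋ + 1) fun k n n' h => by rw [hp k n n' h])
    rw [← sub_eq_iff_eq_add, eq_comm, Int.floor_eq_iff]
    simp only [Pi.sub_apply, toR_apply, Pi.zero_apply, Set.mem_Ioc]
    push_cast
    constructor <;> rintro ⟨h1, h2⟩ <;> constructor <;> linarith
  have h1 := hasSum_integral_iUnion (s := B)
    (fun n => (measurableSet_box _).preimage (by fun_prop))
    (fun n n' h => Set.disjoint_left.2 fun v a b => h ((e v).unique a b))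
    (integrable_gs hA).integrableOn
  rw [Set.eq_univ_of_forall fun v => Set.mem_iUnion.2 (e v).exists, setIntegral_univ,
    integral_gs_real hA] at h1
  refine h1.congr_fun fun n => ?_
  have := (Measure.measurePreserving_sub_left volume (toR n - p n)).setIntegral_preimage_emb
    (MeasurableEquiv.subLeft _).measurableEmbedding (fun x => gs A (toR n - p n - x)) (box 0)
  simp only [sub_sub_cancel] at this
  simp only [← sub_sub]
  exact this.symm

theorem integrable_tsum_bdd {Ω X : Type} [Countable Ω] [MeasurableSpace X] {μ : Measure X}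
    [IsFiniteMeasure μ] {F : Ω → X → ℝ} (h1 : ∀ y, Integrable (F y) μ)
    (h2 : ∀ x, Summable fun y => F y x) {B : ℝ} (h3 : ∀ x, ‖∑' y, F y x‖ ≤ B) :
    Integrable (fun x => ∑' y, F y x) μ :=
  (integrable_const B).mono' (aestronglyMeasurable_of_tendsto_ae (atTop : Filter (Finset Ω))
    (f := fun s c => ∑ z ∈ s, F z c) (fun s => (integrable_finset_sum s fun z _ => h1 z).1)
    (Eventually.of_forall fun c => (h2 c).hasSum)) (Eventually.of_forall h3)

/-- one shift of the centres is as good as the average -/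
theorem exists_cen_tri (hA : A.PosDef) {Ω : Type} [Countable Ω] {a : Ω → ℝ} (ha : Summable a)
    {p : Ω → (K → ℤ) → K → ℝ} (hp : ∀ y, Tri lv (p y)) : ∃ x : K → ℝ, (∀ k, |x k| ≤ 1) ∧
      ∑' y, a y ≤ ∑' y, a y * ms A fun n => p y n + x := by
  have hv := vol_pos hA
  obtain ⟨B, hB⟩ := ms_bdd hA
  haveI : IsProbabilityMeasure (volume.restrict (box (0 : K → ℤ))) := ⟨by
    rw [Measure.restrict_apply_univ, box_eq_pi, Real.volume_pi_Ioc]; simp⟩
  have h0 : ∀ (y) (n : K → ℤ), IntegrableOn (fun x => ng A (toR n - (p y n + x))) (box 0) :=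
    fun y n => integrableOn_box (((continuous_gs A).comp (by fun_prop)).div_const _)
  have hb : ∀ y x, ‖ms A fun n => p y n + x‖ ≤ B := fun y x => by
    rw [Real.norm_of_nonneg (ms_nonneg _ _)]; exact hB lv _ (tri_add (hp y) x)
  have h1 : ∀ y, IntegrableOn (fun x => ms A fun n => p y n + x) (box 0) := fun y =>
    integrable_tsum_bdd (h0 y) (fun x => summable_ng (tri_add (hp y) x) hA) (hb y)
  have h2 : ∀ y (r : ℝ), ∫ x in box (0 : K → ℤ), r * ms A (fun n => p y n + x) = r := fun y r => by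
    have h : HasSum (fun n : K → ℤ => ∫ x in box (0 : K → ℤ), ng A (toR n - (p y n + x))) 1 :=
      div_self hv.ne' ▸ ((hasSum_tile hA (hp y)).div_const (vol A)).congr_fun fun n =>
        integral_div _ _
    have k := integral_tsum_of_summable_integral_norm (h0 y)
      (by simpa only [Real.norm_of_nonneg (ng_nonneg _ _)] using h.summable)
    rw [integral_const_mul]
    exact (congrArg _ (k.symm.trans h.tsum_eq)).trans (mul_one r)
  have hn : ∀ y x, ‖a y * ms A fun n => p y n + x‖ = |a y| * ms A fun n => p y n + x :=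
    fun y x => by rw [norm_mul, Real.norm_of_nonneg (ms_nonneg _ _)]; rfl
  have h3 : ∀ y x, ‖a y * ms A fun n => p y n + x‖ ≤ |a y| * B := fun y x => by
    rw [norm_mul]; exact mul_le_mul_of_nonneg_left (hb y x) (abs_nonneg _)
  have h4 := integral_tsum_of_summable_integral_norm (fun y => (h1 y).const_mul (a y))
    (by simpa only [hn, h2] using ha.abs)
  obtain ⟨x, hx, h5⟩ := exists_notMem_null_integral_le (integrable_tsum_bdd
    (fun y => (h1 y).const_mul (a y)) (fun x => (ha.abs.mul_right B).of_norm_bounded (h3 · x))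
    fun x => tsum_of_norm_bounded (ha.abs.mul_right B).hasSum (h3 · x))
    (N := (box (0 : K → ℤ))ᶜ) (by rw [Measure.restrict_apply' (measurableSet_box _)]; simp)
  refine ⟨x, fun k => ?_, ?_⟩
  · have h6 := box_subset_cube (not_not.1 hx)
    exact abs_le.2 ⟨le_trans (by norm_num) (h6.1 k), h6.2 k⟩
  · simpa only [← h4, h2] using h5

end mix

variable {D W S : Type} {s : ℕ} {N : ℝ}

theorem vars_fn {P : Tow} {Z : Sys P W S} (hp : ∀ a, 0 < P.lv a) (hZ : Z.Ok) {o : Option S}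
    {a b : P.ι} (hb : b ∈ (Z.fam.fn o a).vars) (e : P.lv b = P.lv a) : b ∈ (P.q a).vars := by
  classical
  obtain ⟨β, h1, h2⟩ := (mem_vars b).1 hb
  have h3 := (JH.coeff (hZ.fam.hom o a) h1).1
  obtain rfl := eq_single_of_weight hp h2 (le_antisymm (h3.trans e.ge)
    (Finsupp.le_weight_of_ne_zero' P.lv (Finsupp.mem_support_iff.1 h2)))
  refine (mem_vars b).2 ⟨_, mem_support_iff.2 fun c => mem_support_iff.1 h1 ?_, h2⟩
  rw [coeff_top hZ o e, c, C_0]

variable {T : Tow} {K : Type} [Fintype K] [DecidableEq K] {lk tr : K → ℕ}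
  {Q : K → MvPolynomial (T.ι ⊕ K) ℝ} {Gk : Matrix K K ℝ} {m : ℕ}

/-- new coordinates in tiers, before the shear -/
abbrev pre (T : Tow) (lk : K → ℕ) (Q : K → MvPolynomial (T.ι ⊕ K) ℝ) (Gk : Matrix K K ℝ) : Tow where
  ι := T.ι ⊕ K
  lv := Sum.elim T.lv lk
  q := Sum.elim (fun a => rename Sum.inl (T.q a)) Q
  G := fromBlocks T.G 0 0 Gk
  el := Sum.elim T.el 0

/-- the tiers of all coordinates -/
def trs (T : Tow) (tr : K → ℕ) : T.ι ⊕ K → ℕ := Sum.elim (fun _ => 0) fun k => tr k + 1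

/-- admissible new coordinates -/
structure New (T : Tow) (lk tr : K → ℕ) (Q : K → MvPolynomial (T.ι ⊕ K) ℝ) (Gk : Matrix K K ℝ)
    (m s : ℕ) : Prop where
  lv : ∀ k, 0 < lk k ∧ lk k < m ∧ lk k ≤ s
  hom : ∀ k, (Q k).IsWeightedHomogeneous (Sum.elim T.lv lk) (lk k)
  tri : ∀ k k', lk k' = lk k → Sum.inr k' ∈ (Q k).vars → tr k' < tr k
  pd : Gk.PosDef
  ort : ∀ k k', Gk k k' ≠ 0 → lk k = lk k' ∧ tr k = tr k'

theorem New.isPre (h : New T lk tr Q Gk m s) (hT : T.Ok0 s) : Pre (pre T lk Q Gk) (trs T tr) s := by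
  classical
  refine ⟨?_, ?_, ?_, ?_, posDef_blocks hT.pd h.pd, ?_, ?_⟩
  · rintro (a | k)
    exacts [hT.pos a, (h.lv k).1]
  · rintro (a | k)
    exacts [hT.le a, (h.lv k).2.2]
  · rintro (a | k)
    exacts [wh_rename (hT.hom a) fun _ => rfl, h.hom k]
  · rintro (a | k) b e hb
    · obtain ⟨i, hi, rfl⟩ := mem_image.1 (vars_rename _ _ hb)
      exact absurd e (hT.low a i hi).ne
    · rcases b with b | b
      exacts [Nat.succ_pos _, Nat.succ_lt_succ (h.tri k b e hb)]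
  · rintro (a | a) (b | b) e
    exacts [hT.blk a b e, rfl, rfl, by_contra fun c => e (h.ort a b c).1]
  · rintro (a | a) e
    exacts [hT.el1 a e, rfl]

theorem New.ok (h : New T lk tr Q Gk m s) (hT : T.Ok s N)
    (h5 : ∀ z : K → ℤ, z ≠ 0 → 1 ≤ qq Gk (toR z)) : (flt (pre T lk Q Gk)).Ok s N := by
  have e : ∀ v : T.ι ⊕ K → ℝ, qq T.G (v ∘ Sum.inl) ≤ qq (fromBlocks T.G 0 0 Gk) v := fun v => by
    rw [qq_blocks]; exact le_add_of_nonneg_right (qq_nonneg h.pd.posSemidef _)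
  refine (h.isPre hT.ok0).ok ?_ ?_ (fun z hz he => ?_) fun x => ?_
  · rintro (a | a) (b | b) e
    exacts [absurd rfl e, rfl, rfl, by_contra fun c => e (congrArg (· + 1) (h.ort a b c).2)]
  · rintro (a | a) e
    exacts [absurd rfl e, rfl]
  · by_cases k : z ∘ Sum.inl = 0
    · refine (h5 (z ∘ Sum.inr) fun c => hz ?_).trans (le_of_le_of_eq (le_add_of_nonneg_left
        (qq_nonneg hT.pd.posSemidef _)) (qq_blocks T.G Gk (toR z)).symm)
      funext x
      cases x
      exacts [congrFun k _, congrFun c _]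
    · exact (hT.sep _ k ((dot_inl T.el z).symm.trans he)).trans (e (toR z))
  · exact le_trans (le_of_eq (congrArg (· ^ 2) (dot_inl' T.el x))) ((hT.elN (x ∘ Sum.inl)).trans
      (mul_le_mul_of_nonneg_left (e x) (sq_nonneg N)))

theorem ln_pre (e : ℕ) (y : T.ι ⊕ K → ℝ) : (pre T lk Q Gk).ln e y = T.ln e (y ∘ Sum.inl) +
    qq Gk fun k => if lk k = e then y (Sum.inr k) - eval y (Q k) else 0 :=
  (qq_blocks T.G Gk _).trans (congrArg (· + _) (congrArg _ (funext fun a => if_congr Iff.rfl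
    (congrArg (y (Sum.inl a) - ·) (eval_rename _ y _)) rfl)))

/-- the length at one level on the tower -/
theorem New.ln (h : New T lk tr Q Gk m s) (hT : T.Ok0 s) (e : ℕ) (y : T.ι ⊕ K → ℝ) :
    (flt (pre T lk Q Gk)).ln e y = T.ln e (y ∘ Sum.inl) +
      qq Gk fun k => if lk k = e then y (Sum.inr k) - eval y (Q k) else 0 :=
  ((h.isPre hT).ln e y).trans (ln_pre e y)

theorem New.mor (h : New T lk tr Q Gk m s) (hT : T.Ok0 s) (j : ℕ) :
    Mor j (flt (pre T lk Q Gk)) T fun a => X (Sum.inl a) := by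
  refine ⟨fun a _ => isWeightedHomogeneous_X ℤ (Sum.elim T.lv lk) (Sum.inl a),
    fun y hy e he => ?_, fun _ y => (dot_inl' T.el y).trans (congrArg _ (ap_inl y).symm)⟩
  have := hy e he
  rw [h.ln hT] at this
  rw [ap_inl]
  exact (le_add_of_nonneg_right (qq_nonneg h.pd.posSemidef _)).trans this

/-- the upper levels are not changed -/
def New.eqv (h : New T lk tr Q Gk m s) :
    {a // m ≤ T.lv a} ≃ {a : T.ι ⊕ K // m ≤ Sum.elim T.lv lk a} :=
  P057AD.eqv T 0 Gk fun k => (h.lv k).2.1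

theorem New.up (h : New T lk tr Q Gk m s) (hT : T.Ok0 s) : Up m (flt (pre T lk Q Gk)) T := by
  have e : ∀ a : {a // m ≤ T.lv a}, ∀ c, (pre T lk Q Gk).lin (Sum.elim T.lv lk)
      (pre T lk Q Gk).q c (Sum.inl a.1) = 0 := by
    rintro a (c | c)
    exacts [(h.isPre hT).lin (lt_irrefl 0), bd_lin _ _ ((h.lv c).2.1.trans_le a.2).ne]
  refine ⟨fun a => X (Sum.inl a), h.eqv, h.mor hT m, fun _ => rfl, fun _ => rfl, fun a y => ?_,
    fun a b => G_flt (e a) (e b), fun _ => rfl⟩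
  refine (congrArg (eval y) ((h.isPre hT).q_eq (a := Sum.inl a.1) fun b hb k => ?_)).trans
    ((eval_rename _ y _).trans (congrArg (eval · (T.q a)) (ap_inl y).symm))
  have := (h.isPre hT).tri _ b k hb
  exact Nat.not_lt_zero _ this

theorem dm_pre (e : ℕ) :
    (flt (pre T lk Q Gk)).dm e = T.dm e + (univ.filter fun k => lk k = e).card :=
  dm_add (Q := 0) (Gk := Gk) e

theorem New.yy (h : New T lk tr Q Gk m s) (hT : T.Ok0 s) (N : ℝ) (e : ℕ) :
    (flt (pre T lk Q Gk)).yy N e = T.yy N e + Real.log (bk Gk fun k => lk k = e).det / 2 := by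
  have h1 : (bk (fromBlocks T.G 0 0 Gk) fun x => Sum.elim T.lv lk x = e).submatrix
      Equiv.subtypeSum.symm Equiv.subtypeSum.symm =
        fromBlocks (bk T.G fun x => T.lv x = e) 0 0 (bk Gk fun x => lk x = e) := by
    ext (i | i) (j | j) <;> rfl
  have h2 := (congrArg det h1).trans (det_fromBlocks_zero₂₁ (bk T.G fun x => T.lv x = e) 0 _)
  have h3 : (bk (pre T lk Q Gk).G fun a => (pre T lk Q Gk).lv a = e).det =
      (bk T.G fun x => T.lv x = e).det * (bk Gk fun x => lk x = e).det :=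
    (det_submatrix_equiv_self _ _).symm.trans h2
  rw [(h.isPre hT).yy, Tow.yy, Tow.yy, h3,
    Real.log_mul (posDef_bk hT.pd _).det_pos.ne' (posDef_bk h.pd _).det_pos.ne']
  ring

variable [Fintype W] [DecidableEq W] [Fintype S] {cl : W → D}

theorem Pre.pr_congr {P : Tow} {tr : P.ι → ℕ} {Z : Sys P W S} (h : Pre P tr s) (hZ : Z.Ok)
    {x x' : Lb P cl S m → ℝ} (l : Lb P cl S m) (e : ∀ u : Lb P cl S m, P.lv u.cd < P.lv l.cd ∨
      P.lv u.cd = P.lv l.cd ∧ tr u.cd < tr l.cd → x u = x' u) : Z.pr cl m x l = Z.pr cl m x' l := by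
  classical
  refine dlt_congr fun B _ => eval₂Hom_congr' rfl (fun b hb _ => sum_congr rfl fun u _ => ?_) rfl
  have h1 := vars_map _ _ hb
  split_ifs with k
  · refine e u (k.1 ▸ ((JH.vars (hZ.fam.hom _ _) h1).lt_or_eq.imp_right fun c => ⟨c, ?_⟩))
    exact h.tri _ _ c (vars_fn h.pos hZ h1 c)
  · rfl

theorem lex_lt {ι : Type} [Fintype ι] {lv tr : ι → ℕ} {a b : ι}
    (h : lv a < lv b ∨ lv a = lv b ∧ tr a < tr b) :
    lv a * (univ.sup tr + 1) + tr a < lv b * (univ.sup tr + 1) + tr b := by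
  have h2 : tr a ≤ univ.sup tr := le_sup (f := tr) (mem_univ _)
  rcases h with k | k
  · nlinarith [Nat.mul_le_mul_right (univ.sup tr + 1) (Nat.succ_le_of_lt k)]
  · rw [k.1]; omega

theorem Pre.tri_pr {P : Tow} {tr : P.ι → ℕ} {Z : Sys P W S} (h : Pre P tr s) (hZ : Z.Ok) :
    Tri (fun l : Lb P cl S m => P.lv l.cd * (univ.sup tr + 1) + tr l.cd)
      fun z => Z.pr cl m (toR z) := fun l z z' e =>
  h.pr_congr hZ l fun u hu => congrArg Int.cast (e u (lex_lt hu))

theorem Pre.summable_w {P : Tow} {tr : P.ι → ℕ} {Z : Sys P W S} (h : Pre P tr s) (hZ : Z.Ok) :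
    Summable (Z.w cl m) := summable_ng (h.tri_pr hZ) (P057GH.pd_Gam h.pd cl S m)

theorem pre_of_ok0 (h : T.Ok0 s) : Pre T (fun _ => 0) s :=
  ⟨h.pos, h.le, h.hom, fun a b e k => absurd e (h.low a b k).ne, h.pd, h.blk, h.el1⟩

/-- an old label -/
def jo (l : Lb T cl S m) : Lb (pre T lk Q Gk) cl S m := il (Q := 0) (Gk := Gk) l

/-- a new label -/
def jw (l : Lb (tk lk Gk) cl S m) : Lb (pre T lk Q Gk) cl S m := ir (T := T) (Q := 0) l

/-- the system with the new coordinates before the shear -/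
def preS (Z : Sys T W S) (Φ : Fam ℝ K (T.ι ⊕ K) W S) (c : Lb (pre T lk Q Gk) cl S m → ℝ) :
    Sys (pre T lk Q Gk) W S where
  fam := ⟨fun o a => Sum.elim (fun a => rename Sum.inl (Z.fam.fn o a)) (Φ.fn o) a + C (lift c o a)⟩
  off := Z.off

variable {Z : Sys T W S} {Φ : Fam ℝ K (T.ι ⊕ K) W S} {c : Lb (pre T lk Q Gk) cl S m → ℝ}

theorem ok_preS (hp : ∀ a, 0 < (pre T lk Q Gk).lv a) (hZ : Z.Ok)
    (h1 : Φ.Ok lk (Sum.elim T.lv lk)) (h2 : Φ.top = Q) (c : Lb (pre T lk Q Gk) cl S m → ℝ) :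
    (preS Z Φ c).Ok := by
  refine ⟨⟨fun o a => JH.add ?_ (JH.C (lift_hom c o a)), fun t a => ?_⟩, fun a => ?_⟩
  · rcases a with a | a
    exacts [JH.rename (hZ.fam.hom o a) fun _ => rfl, h1.hom o a]
  · have h3 := kt_lift c (some t) a
    rcases a with a | a <;>
      simp only [preS, map_add, map_C, map_rename, h3, Sum.elim_inl, Sum.elim_inr, hZ.fam.pure,
        h1.pure]
  · have h3 := constantCoeff_lift hp c none a
    rcases a with a | a <;>
      simp only [Fam.top, preS, map_add, map_C, map_rename, h3, Sum.elim_inl, Sum.elim_inr, map_zero,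
        add_zero]
    exacts [congrArg _ (hZ.top a), congrFun h2 a]

theorem lift_zero (hc : ∀ l a, l.cd = Sum.inl a → c l = 0) (o : Option S) (a : T.ι) :
    lift c o (Sum.inl a) = 0 :=
  sum_eq_zero fun l _ => by
    split_ifs with h
    exacts [by rw [hc l a h.1, C_0, zero_mul], rfl]

theorem eval_old (hc : ∀ l a, l.cd = Sum.inl a → c l = 0) (o : Option S) (A : Finset W) (a : T.ι)
    (y : T.ι ⊕ K → ℝ) : eval y ((preS Z Φ c).fam.at' o A (Sum.inl a)) =
      eval (y ∘ Sum.inl) (Z.fam.at' o A a) := by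
  simp only [Fam.at', preS, lift_zero hc, C_0, add_zero, Sum.elim_inl, map_rename, eval_rename]

theorem pt_jo {R : Type} [AddCommMonoid R] (x : Lb (pre T lk Q Gk) cl S m → R) (o : Option S)
    (B : Finset W) (a : T.ι) : pt (x ∘ jo) o B a = pt x o B (Sum.inl a) :=
  pt_ren (T' := pre T lk Q Gk) (e := Sum.inl) (fun _ => rfl) Sum.inl_injective x o B a

theorem sub_jo (z : Lb (pre T lk Q Gk) cl S m → ℤ) :
    (Fam.ren W S Sum.inl).sub (T' := flt (pre T lk Q Gk)) cl m z = z ∘ jo :=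
  funext fun l => sub_ren (T' := flt (pre T lk Q Gk)) Sum.inl (fun _ => rfl) z l

theorem pr_jo (hc : ∀ l a, l.cd = Sum.inl a → c l = 0) (x : Lb (pre T lk Q Gk) cl S m → ℝ)
    (l : Lb T cl S m) : (preS Z Φ c).pr cl m x (jo l) = Z.pr cl m (x ∘ jo) l := by
  refine dlt_congr fun B _ => (eval_old hc _ B l.cd _).trans ?_
  rw [funext (pt_jo x l.bs B)]
  rfl

theorem pr_jw (x : Lb (pre T lk Q Gk) cl S m → ℝ) (l : Lb (tk lk Gk) cl S m) :
    (preS Z Φ c).pr cl m x (jw l) = Φ.alt (pt x) l.bs l.fc l.cd + c (jw l) := by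
  refine (Fam.alt_eq _ x _ _ _).trans ((congrArg (altL l.fc) (map_add (eval (lift x l.bs))
    (Φ.fn l.bs l.cd) _)).trans ((altL_add _ _ _).trans (congrArg₂ (· + ·)
      (Fam.alt_eq (T := pre T lk Q Gk) Φ x _ _ _).symm ?_)))
  rw [eval_C]
  exact altL_lift c (jw l)

theorem gam_pre : (Gam (pre T lk Q Gk) cl S m).submatrix (Sum.elim jo jw) (Sum.elim jo jw) =
    fromBlocks (Gam T cl S m) 0 0 (Gam (tk lk Gk) cl S m) := by
  ext (l | l) (l' | l')
  exacts [rfl, ite_self _, ite_self _, rfl]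

theorem qq_pre (v : Lb (pre T lk Q Gk) cl S m → ℝ) : qq (Gam (pre T lk Q Gk) cl S m) v =
    qq (Gam T cl S m) (v ∘ jo) + qq (Gam (tk lk Gk) cl S m) (v ∘ jw) :=
  (qq_submatrix _ (eL (Gk := Gk) 0) v).symm.trans
    ((congrArg (qq · _) gam_pre).trans (qq_blocks _ _ _))

theorem w_pre (hG : T.G.PosDef) (hc : ∀ l a, l.cd = Sum.inl a → c l = 0)
    (z : Lb (pre T lk Q Gk) cl S m → ℤ) : (preS Z Φ c).w cl m z = Z.w cl m (z ∘ jo) *
      ng (Gam (tk lk Gk) cl S m) (toR (z ∘ jw) -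
        ((fun l => Φ.alt (pt (toR z)) l.bs l.fc l.cd) + c ∘ jw)) :=
  (ng_submatrix _ (eL (Gk := Gk) 0) _).symm.trans ((congrArg (ng · _) gam_pre).trans
    ((ng_blocks (P057GH.pd_Gam hG cl S m) _).trans (congrArg₂ (· * ·)
      (congrArg _ (funext fun l => congrArg (_ - ·) (pr_jo hc _ l)))
      (congrArg _ (funext fun l => congrArg (_ - ·) (pr_jw _ l))))))

theorem New.F (h : New T lk tr Q Gk m s) (hc : ∀ l a, l.cd = Sum.inl a → c l = 0) (f : ℤ → ℝ)
    (z : Lb (pre T lk Q Gk) cl S m → ℤ) (A : Finset W) (t : S) :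
    (preS Z Φ c).F cl m f z A t = Z.F cl m f (z ∘ jo) A t := by
  have e : ∀ y, Sys.full cl m (z ∘ jo) A t (y ∘ h.eqv) = Sys.full cl m z A t y ∘ Sum.inl :=
    fun y => funext fun a => by
      unfold Sys.full
      rw [pt_jo]
      rfl
  rw [P057GH.F_eq, P057GH.F_eq]
  refine (er_equiv h.eqv (fun a b => rfl) (fun y a => ?_) fun y => ?_).symm
  · refine Eq.trans ?_ (eval_old hc _ _ a.1 _).symm
    rw [P057GH.up, e]
    rfl
  · rw [e]
    exact congrArg (fun u => f (Z.off A t + u)) (dot_inl T.el _).symm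

/-- the squared length below a level on the system with new coordinates -/
theorem New.qq_low (h : New T lk tr Q Gk m s) (hT : T.Ok0 s) (hZ : (preS Z Φ c).Ok)
    (hc : ∀ l a, l.cd = Sum.inl a → c l = 0) (z : Lb (pre T lk Q Gk) cl S m → ℤ)
    (p : ℕ → Prop) [DecidablePred p] : qq (Gam (flt (pre T lk Q Gk)) cl S m) (fun l =>
      if p (Sum.elim T.lv lk l.cd) then (fltS (preS Z Φ c)).ps cl m z l else 0) =
      qq (Gam T cl S m) (fun l => if p (T.lv l.cd) then Z.ps cl m (z ∘ jo) l else 0) +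
        qq (Gam (tk lk Gk) cl S m) fun l => if p (lk l.cd) then
          (z (jw l) : ℝ) - (Φ.alt (pt (toR z)) l.bs l.fc l.cd + c (jw l)) else 0 :=
  ((h.isPre hT).qq_low hZ z p).trans ((qq_pre _).trans (congrArg₂ (· + ·)
    (congrArg _ (funext fun l => if_congr Iff.rfl (congrArg (_ - ·) (pr_jo hc _ l)) rfl))
    (congrArg _ (funext fun l => if_congr Iff.rfl (congrArg (_ - ·) (pr_jw _ l)) rfl))))

/-- the squared length on the system with new coordinates -/
theorem New.qq_ps (h : New T lk tr Q Gk m s) (hT : T.Ok0 s) (hZ : (preS Z Φ c).Ok)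
    (hc : ∀ l a, l.cd = Sum.inl a → c l = 0) (z : Lb (pre T lk Q Gk) cl S m → ℤ) :
    qq (Gam (flt (pre T lk Q Gk)) cl S m) ((fltS (preS Z Φ c)).ps cl m z) =
      qq (Gam T cl S m) (Z.ps cl m (z ∘ jo)) + qq (Gam (tk lk Gk) cl S m) fun l =>
        (z (jw l) : ℝ) - (Φ.alt (pt (toR z)) l.bs l.fc l.cd + c (jw l)) :=
  ((h.isPre hT).qq_ps hZ z).trans ((qq_pre _).trans (congrArg₂ (· + ·)
    (congrArg _ (funext fun l => congrArg (_ - ·) (pr_jo hc _ l)))
    (congrArg _ (funext fun l => congrArg (_ - ·) (pr_jw _ l)))))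

theorem New.sub (h : New T lk tr Q Gk m s) (hT : T.Ok0 s) (hZ : (preS Z Φ c).Ok)
    (hc : ∀ l a, l.cd = Sum.inl a → c l = 0) (R : ℝ) :
    Sub cl m (fltS (preS Z Φ c)) Z (Fam.ren W S Sum.inl) R 0 := by
  refine ⟨ok_ren fun _ => rfl, ?_, fun f z A _ t => ?_, fun z _ => ?_⟩
  · exact (funext (top_ren (W := W) (S := S) Sum.inl)).symm ▸ h.mor hT m
  · exact ((h.isPre hT).F hZ f z A t).trans ((h.F hc f z A t).trans
      (congrArg (Z.F cl m f · A t) (sub_jo z).symm))
  · refine (congrArg (Z.nrm cl m) (sub_jo z)).trans_le ?_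
    rw [add_zero]
    exact Real.sqrt_le_sqrt ((le_add_of_nonneg_right (qq_nonneg (P057GH.pd_Gam (T := tk lk Gk)
      h.pd cl S m).posSemidef _)).trans_eq (h.qq_ps hT hZ hc z).symm)

/-- old and new labels together -/
def jz (y : Lb T cl S m → ℤ) (n : Lb (tk lk Gk) cl S m → ℤ) : Lb (pre T lk Q Gk) cl S m → ℤ :=
  Sum.elim y n ∘ (eL (Gk := Gk) 0).symm

theorem jz_jo (y : Lb T cl S m → ℤ) (n : Lb (tk lk Gk) cl S m → ℤ) :
    jz (Q := Q) y n ∘ jo = y :=
  funext fun l => congrArg (Sum.elim y n) ((eL 0).symm_apply_apply (Sum.inl l))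

theorem jz_jw (y : Lb T cl S m → ℤ) (n : Lb (tk lk Gk) cl S m → ℤ) :
    jz (Q := Q) y n ∘ jw = n :=
  funext fun l => congrArg (Sum.elim y n) ((eL 0).symm_apply_apply (Sum.inr l))

/-- the centres of the new labels over an old configuration -/
def cenT (Q : K → MvPolynomial (T.ι ⊕ K) ℝ) (Φ : Fam ℝ K (T.ι ⊕ K) W S) (y : Lb T cl S m → ℤ)
    (n : Lb (tk lk Gk) cl S m → ℤ) (l : Lb (tk lk Gk) cl S m) : ℝ :=
  Φ.alt (pt (toR (jz (Q := Q) y n))) l.bs l.fc l.cd

theorem New.tri_cen (h : New T lk tr Q Gk m s) (hT : T.Ok0 s) (hZ : (preS Z Φ c).Ok)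
    (y : Lb T cl S m → ℤ) : Tri (fun l : Lb (tk lk Gk) cl S m =>
      lk l.cd * (univ.sup tr + 1) + tr l.cd) (cenT Q Φ y) := fun l n n' e => by
  have h1 := (h.isPre hT).pr_congr hZ (x := toR (jz y n)) (x' := toR (jz y n')) (jw l) fun u hu => by
    obtain ⟨u | u, rfl⟩ := (eL (cl := cl) (S := S) (m := m) (lk := lk) (Gk := Gk) 0).surjective u
    · exact congrArg Int.cast ((congrFun (jz_jo y n) u).trans (congrFun (jz_jo y n') u).symm)
    · refine congrArg Int.cast ((congrFun (jz_jw y n) u).trans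
        ((e u (lex_lt ?_)).trans (congrFun (jz_jw y n') u).symm))
      exact hu.imp_right fun k => ⟨k.1, Nat.lt_of_succ_lt_succ k.2⟩
  rwa [pr_jw, pr_jw, add_left_inj] at h1

/-- sums against the new weight -/
theorem New.tsum_eq (h : New T lk tr Q Gk m s) (hT : T.Ok0 s) (hZ : (preS Z Φ c).Ok)
    (hc : ∀ l a, l.cd = Sum.inl a → c l = 0) {g : (Lb (pre T lk Q Gk) cl S m → ℤ) → ℝ}
    {B : ℝ} (hg : ∀ y, |g y| ≤ B) : ∑' z, (fltS (preS Z Φ c)).w cl m z * g z =
      ∑' y, Z.w cl m y * ∑' n, ng (Gam (tk lk Gk) cl S m)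
        (toR n - (cenT Q Φ y n + c ∘ jw)) * g (jz y n) := by
  have hs := summable_mul_real ((pre_of_ok0 (h.isPre hT).ok0).summable_w (cl := cl) (m := m)
    ((h.isPre hT).okS hZ)) (fun _ => ng_nonneg _ _) hg
  let e := Equiv.arrowCongr (eL (T := T) (cl := cl) (S := S) (m := m) (lk := lk) (Gk := Gk) 0)
    (Equiv.refl ℤ)
  refine (e.tsum_eq _).symm.trans ((tsum_sum_elim (e.summable_iff.2 hs)).trans
    (tsum_congr fun y => ?_))
  rw [← tsum_mul_left]
  refine tsum_congr fun n => ?_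
  rw [← mul_assoc]
  refine congrArg (· * _) (((h.isPre hT).w hZ (jz y n)).trans ((w_pre hT.pd hc _).trans ?_))
  rw [jz_jo, jz_jw]
  rfl

/-- new coordinates in tiers at random centres: an exact mixture -/
theorem addt (h : New T lk tr Q Gk m s) (hT : T.Ok0 s) (hZ : Z.Ok)
    (h1 : Φ.Ok lk (Sum.elim T.lv lk)) (h2 : Φ.top = Q) {H : (Lb T cl S m → ℤ) → ℝ} {B κ σ : ℝ}
    (hS : Z.St cl m H B κ σ) :
    ∃ c : Lb (pre T lk Q Gk) cl S m → ℝ, (∀ l, |c l| ≤ 1) ∧ (∀ l a, l.cd = Sum.inl a → c l = 0) ∧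
      (preS Z Φ c).Ok ∧ (fltS (preS Z Φ c)).Ok ∧
      (∀ R, Sub cl m (fltS (preS Z Φ c)) Z (Fam.ren W S Sum.inl) R 0) ∧
      (fltS (preS Z Φ c)).St cl m (fun z => H ((Fam.ren W S Sum.inl).sub cl m z)) B κ σ := by
  have h0 := ok_preS (cl := cl) (m := m) (h.isPre hT).pos hZ h1 h2
  have hg : ∀ y, |H y - κ| ≤ B + |κ| := fun y => (abs_sub _ _).trans (add_le_add_left (hS.1 y) _)
  obtain ⟨x, hx, h7⟩ := exists_cen_tri (P057GH.pd_Gam (T := tk lk Gk) h.pd cl S m)
    (summable_mul_real ((pre_of_ok0 hT).summable_w hZ) (fun _ => ng_nonneg _ _) hg)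
    (h.tri_cen hT (h0 0))
  let c : Lb (pre T lk Q Gk) cl S m → ℝ := Sum.elim (fun _ => 0) x ∘ (eL (Gk := Gk) 0).symm
  have hc : ∀ l a, l.cd = Sum.inl a → c l = 0 := fun l a e => by
    obtain ⟨u, rfl⟩ := mem_ren (T' := pre T lk Q Gk) (e := Sum.inl) (fun _ => rfl) e
    exact congrArg (Sum.elim (fun _ => 0) x) ((eL 0).symm_apply_apply (Sum.inl u))
  have h8 : c ∘ jw = x :=
    funext fun l => congrArg (Sum.elim (fun _ => 0) x) ((eL 0).symm_apply_apply (Sum.inr l))
  refine ⟨c, fun l => ?_, hc, h0 c, (h.isPre hT).okS (h0 c), h.sub hT (h0 c) hc, fun z => hS.1 _,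
    hS.2.trans (h7.trans_eq ?_)⟩
  · change |Sum.elim (fun _ => 0) x _| ≤ 1
    rcases (eL (Gk := Gk) 0).symm l with u | u
    exacts [by simp, hx u]
  · refine Eq.trans (tsum_congr fun y => ?_) (h.tsum_eq hT (h0 c) hc fun z => hg _).symm
    simp only [sub_jo, jz_jo, h8, tsum_mul_right]
    exact mul_assoc _ _ _ |>.trans (congrArg _ (mul_comm _ _))

/-- the family of the polynomials `Q` without lower order terms -/
def famT (W S : Type) {ι κ : Type} (Q : ι → MvPolynomial κ ℝ) : Fam ℝ ι κ W S :=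
  ⟨fun _ k => MvPolynomial.map C (Q k)⟩

theorem ok_famT {W S ι κ : Type} {Q : ι → MvPolynomial κ ℝ} {lv : ι → ℕ} {lw : κ → ℕ}
    (h : ∀ k, (Q k).IsWeightedHomogeneous lw (lv k)) : (famT W S Q).Ok lv lw :=
  ⟨fun _ k => JH.of_hom (h k), fun _ _ => rfl⟩

theorem top_famT {W S ι κ : Type} (Q : ι → MvPolynomial κ ℝ) : (famT W S Q).top = Q := by
  have e : (constantCoeff : Lam ℝ W →+* ℝ).comp C = RingHom.id ℝ := RingHom.ext fun r => by simp
  funext k
  simp only [Fam.top, famT, MvPolynomial.map_map, e, MvPolynomial.map_id]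

/-- all clauses together, for polynomials without lower order terms -/
theorem addt' (h : New T lk tr Q Gk m s) (hT : T.Ok s N) (hZ : Z.Ok)
    (h5 : ∀ z : K → ℤ, z ≠ 0 → 1 ≤ qq Gk (toR z)) {H : (Lb T cl S m → ℤ) → ℝ} {B κ σ : ℝ}
    (hS : Z.St cl m H B κ σ) :
    (flt (pre T lk Q Gk)).Ok s N ∧ Up m (flt (pre T lk Q Gk)) T ∧
    (∀ e, (flt (pre T lk Q Gk)).dm e = T.dm e + (univ.filter fun k => lk k = e).card ∧
      (flt (pre T lk Q Gk)).yy N e = T.yy N e + Real.log (bk Gk fun k => lk k = e).det / 2) ∧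
    ∃ c : Lb (pre T lk Q Gk) cl S m → ℝ, (∀ l, |c l| ≤ 1) ∧ (∀ l a, l.cd = Sum.inl a → c l = 0) ∧
      (preS Z (famT W S Q) c).Ok ∧ (fltS (preS Z (famT W S Q) c)).Ok ∧
      (∀ R, Sub cl m (fltS (preS Z (famT W S Q) c)) Z (Fam.ren W S Sum.inl) R 0) ∧
      (fltS (preS Z (famT W S Q) c)).St cl m (fun z => H ((Fam.ren W S Sum.inl).sub cl m z))
        B κ σ :=
  ⟨h.ok hT h5, h.up hT.ok0, fun e => ⟨dm_pre e, h.yy hT.ok0 N e⟩,
    addt h hT.ok0 hZ (ok_famT h.hom) (top_famT Q) hS⟩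

end

end Vale.Agent.P057AD
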