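import Vale.Agent.P057AD.Pos
import Vale.Agent.P057TP.Ops2

/-! Linear terms of the same level are sheared into the Gram matrix. -/

set_option linter.all false

open Matrix Finset MvPolynomial
open Vale.Agent.P267.H775 Vale.Agent.P057G Vale.Agent.P057PC Vale.Agent.P057TP Vale.Agent.P057ST

namespace Vale.Agent.P057AD

noncomputable section

/-- the variables of level `d` are put to zero -/
def kil {R ι : Type} [CommRing R] (lv : ι → ℕ) (d : ℕ) : MvPolynomial ι R →ₐ[R] MvPolynomial ι R :=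
  bind₁ fun b => if lv b = d then 0 else X b

theorem eval_kil {R ι : Type} [CommRing R] [Fintype ι] {lv : ι → ℕ} (hp : ∀ a, 0 < lv a)
    {p : MvPolynomial ι R} {d : ℕ} (h : ∀ β ∈ p.support, Finsupp.weight lv β ≤ d) (y : ι → R) :
    eval y p = eval y (kil lv d p) +
      ∑ b, (if lv b = d then coeff (Finsupp.single b 1) p else 0) * y b := by
  classical
  have key : ∀ β (r : R), Finsupp.weight lv β ≤ d → eval y (monomial β r) =
      eval y (kil lv d (monomial β r)) +
      ∑ b, (if lv b = d then coeff (Finsupp.single b 1) (monomial β r) else 0) * y b := by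
    intro β r hβ
    by_cases k : Finsupp.weight lv β = d
    · have := aeval_sub_lin hp (isWeightedHomogeneous_monomial lv β r k) (g := y)
        (g' := fun b => eval y (if lv b = d then 0 else X b)) fun b hb => by rw [if_neg hb, eval_X]
      rw [kil, eval_bind]
      refine this.trans (congrArg _ (sum_congr rfl fun b _ => ?_))
      split_ifs <;> simp
    · have e : ∀ b ∈ β.support, lv b ≠ d := fun b hb c => k (le_antisymm hβ
        (c ▸ Finsupp.le_weight_of_ne_zero' lv (Finsupp.mem_support_iff.1 hb)))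
      rw [sum_eq_zero fun b _ => ?_, add_zero, kil, eval_bind, eval_monomial, eval_monomial]
      · exact congrArg _ (Finsupp.prod_congr fun b hb => by rw [if_neg (e b hb), eval_X])
      · split_ifs with c
        · rw [coeff_monomial, if_neg fun u => e b (by simp [u]) c, zero_mul]
        · exact zero_mul _
  conv_lhs => rw [p.as_sum, map_sum]
  conv_rhs => rw [p.as_sum, map_sum, map_sum]
  rw [sum_congr rfl fun β hβ => key β _ (h β hβ), sum_add_distrib, sum_comm]
  congr 1
  refine sum_congr rfl fun b _ => ?_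
  rw [← sum_mul, coeff_sum]
  split_ifs <;> simp

theorem vars_kil {R ι : Type} [CommRing R] [Nontrivial R] {lv : ι → ℕ} {d : ℕ}
    {p : MvPolynomial ι R} {j : ι} (h : j ∈ (kil lv d p).vars) : j ∈ p.vars ∧ lv j ≠ d := by
  classical
  obtain ⟨b, hb, k⟩ := mem_biUnion.1 (vars_bind₁ _ _ h)
  split_ifs at k with e
  · simp at k
  · rw [vars_X, mem_singleton] at k
    exact k ▸ ⟨hb, e⟩

theorem kil_eq {R ι : Type} [CommRing R] {lv : ι → ℕ} {d : ℕ} {p : MvPolynomial ι R}
    (h : ∀ j ∈ p.vars, lv j ≠ d) : kil lv d p = p :=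
  (hom_congr_vars (f₁ := (kil (R := R) lv d).toRingHom) (f₂ := RingHom.id _) (by ext; simp)
    (fun j hj _ => by simp [kil, h j hj]) rfl :)

theorem map_kil {R R' ι : Type} [CommRing R] [CommRing R'] (f : R →+* R') (lv : ι → ℕ) (d : ℕ)
    (p : MvPolynomial ι R) :
    MvPolynomial.map f (kil lv d p) = kil lv d (MvPolynomial.map f p) := by
  simp only [kil, map_bind₁, apply_ite (MvPolynomial.map f), map_zero, map_X]

theorem Bd.inv {ι τ : Type} [Fintype ι] [DecidableEq ι] {lv : ι → τ} {A : Matrix ι ι ℝ}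
    (h : Bd lv lv A) (hd : IsUnit A.det) : Bd lv lv A⁻¹ := fun i j e => by_contra fun k =>
  e (P057MA.Ort.inv (fun i j c => by_contra fun u => c (h i j u)) hd i j k)

theorem Bd.sub_mul' {ι κ ν μ τ : Type} [Fintype κ] {lv : ι → τ} {lw : κ → τ} {A : Matrix ι κ ℝ}
    (h : Bd lv lw A) (B : Matrix κ ν ℝ) (p : τ → Prop) [DecidablePred fun x => p (lw x)]
    (f : μ → ν) : (A * B).submatrix (Subtype.val : {i // p (lv i)} → ι) f =
      A.submatrix Subtype.val (Subtype.val : {x // p (lw x)} → κ) * B.submatrix Subtype.val f := by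
  ext i j
  simp only [submatrix_apply, mul_apply]
  rw [← Fintype.sum_subtype_add_sum_subtype (fun x => p (lw x)), add_eq_left]
  exact sum_eq_zero fun x _ => by rw [h i x fun c => x.2 (c ▸ i.2), zero_mul]

theorem Bd.mask {ι κ τ : Type} [Fintype κ] {lv : ι → τ} {lw : κ → τ} {A : Matrix ι κ ℝ}
    (h : Bd lv lw A) (p : τ → Prop) [DecidablePred p] (v : κ → ℝ) :
    (A *ᵥ fun b => if p (lw b) then v b else 0) = fun a => if p (lv a) then (A *ᵥ v) a else 0 := by
  funext a
  simp only [mulVec, dotProduct]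
  split_ifs with k
  · refine sum_congr rfl fun b _ => ?_
    by_cases e : lv a = lw b
    · rw [if_pos (e ▸ k)]
    · rw [h a b e, zero_mul, zero_mul]
  · refine sum_eq_zero fun b _ => ?_
    by_cases e : lv a = lw b
    · rw [if_neg (e ▸ k), mul_zero]
    · rw [h a b e, zero_mul]

theorem qq_mask_le {ι τ : Type} [Fintype ι] [DecidableEq ι] {lv : ι → τ} {G : Matrix ι ι ℝ}
    (hG : G.PosDef) (h : Bd lv lv G) (p : τ → Prop) [DecidablePred p] (v : ι → ℝ) :
    qq G (fun b => if p (lv b) then v b else 0) ≤ qq G v := by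
  have h1 := qq_add hG.1 (fun b => if p (lv b) then v b else 0) fun b => if ¬p (lv b) then v b else 0
  have h2 : ((fun b => if p (lv b) then v b else 0) + fun b => if ¬p (lv b) then v b else 0) = v :=
    funext fun b => by by_cases k : p (lv b) <;> simp [k]
  have h3 : bb G (fun b => if p (lv b) then v b else 0) (fun b => if ¬p (lv b) then v b else 0) =
      0 := by
    rw [bb, h.mask fun t => ¬p t]
    exact sum_eq_zero fun b _ => by by_cases k : p (lv b) <;> simp [k]
  rw [h2, h3] at h1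
  linarith [qq_nonneg hG.posSemidef fun b => if ¬p (lv b) then v b else 0]

/-- a tower whose polynomials may contain variables of the same level and of lower tier -/
structure Pre (P : Tow) (tr : P.ι → ℕ) (s : ℕ) : Prop where
  pos : ∀ a, 0 < P.lv a
  le : ∀ a, P.lv a ≤ s
  hom : ∀ a, (P.q a).IsWeightedHomogeneous P.lv (P.lv a)
  tri : ∀ a b, P.lv b = P.lv a → b ∈ (P.q a).vars → tr b < tr a
  pd : P.G.PosDef
  blk : ∀ a b, P.lv a ≠ P.lv b → P.G a b = 0
  el1 : ∀ a, P.lv a ≠ 1 → P.el a = 0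

/-- the unipotent matrix of the linear terms of the same level -/
def LP (P : Tow) : Matrix P.ι P.ι ℝ := 1 - P.lin P.lv P.q

/-- the tower with the linear terms moved into the Gram matrix -/
abbrev flt (P : Tow) : Tow where
  ι := P.ι
  lv := P.lv
  q a := ∑ b, C ((LP P)⁻¹ a b) * kil P.lv (P.lv b) (P.q b)
  G := (LP P)ᵀ * P.G * LP P
  el := P.el

variable {D W S : Type} {P : Tow} {tr : P.ι → ℕ} {s : ℕ} {N : ℝ}

/-- the system on the flat tower -/
def fltS (Z : Sys P W S) : Sys (flt P) W S :=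
  ⟨⟨fun o a => ∑ b, C (C ((LP P)⁻¹ a b)) * kil P.lv (P.lv b) (Z.fam.fn o b)⟩, Z.off⟩

theorem bd_LP : Bd P.lv P.lv (LP P) := fun a b e => by
  rw [LP, Matrix.sub_apply, one_apply_ne fun k => e (congrArg _ k), bd_lin _ _ e, sub_zero]

theorem Pre.lin (h : Pre P tr s) {a b : P.ι} (e : ¬tr b < tr a) : P.lin P.lv P.q a b = 0 := by
  classical
  refine ite_eq_right_iff.2 fun k => by_contra fun c => e (h.tri a b k ?_)
  exact (mem_vars b).2 ⟨_, mem_support_iff.2 c, by simp⟩

theorem Pre.uni (h : Pre P tr s) : Uni tr (LP P) := fun a b e => by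
  rw [LP, Matrix.sub_apply, h.lin e, sub_zero]

theorem Pre.unit (h : Pre P tr s) : IsUnit (LP P).det := h.uni.det ▸ isUnit_one

theorem Pre.key (h : Pre P tr s) {A : Type} [CommRing A] (φ : ℝ →+* A)
    {p : P.ι → MvPolynomial P.ι A} (h1 : ∀ a, ∀ β ∈ (p a).support, Finsupp.weight P.lv β ≤ P.lv a)
    (h2 : ∀ a b, P.lv b = P.lv a →
      coeff (Finsupp.single b 1) (p a) = φ (coeff (Finsupp.single b 1) (P.q a))) (y : P.ι → A)
    (a : P.ι) : ∑ b, φ (LP P a b) * (y b - eval y
      (∑ c, C (φ ((LP P)⁻¹ b c)) * kil P.lv (P.lv c) (p c))) = y a - eval y (p a) := by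
  have e : ∀ c, ∑ b, φ (LP P a b) * φ ((LP P)⁻¹ b c) = if a = c then 1 else 0 := fun c => by
    simp only [← map_mul, ← map_sum]
    rw [← mul_apply, mul_nonsing_inv _ h.unit, one_apply, apply_ite φ, map_one, map_zero]
  simp only [map_sum, map_mul, eval_C, mul_sub, sum_sub_distrib, mul_sum, ← mul_assoc]
  rw [sum_comm]
  simp only [← sum_mul, e, ite_mul, one_mul, zero_mul, sum_ite_eq, mem_univ, if_true]
  rw [eval_kil h.pos (h1 a), ← sub_sub, sub_right_comm]
  congr 1
  simp only [LP, Matrix.sub_apply, map_sub, sub_mul, sum_sub_distrib, one_apply, apply_ite φ,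
    map_one, map_zero, ite_mul, one_mul, zero_mul, sum_ite_eq, mem_univ, if_true, Tow.lin, of_apply]
  congr 1
  refine sum_congr rfl fun b _ => ?_
  split_ifs with k
  exacts [by rw [h2 a b k], rfl]

theorem Pre.ps (h : Pre P tr s) (y : P.ι → ℝ) : LP P *ᵥ (flt P).ps y = P.ps y :=
  funext fun a => h.key (RingHom.id ℝ) (fun a β hβ => (h.hom a (mem_support_iff.1 hβ)).le)
    (fun _ _ _ => rfl) y a

theorem Pre.ln (h : Pre P tr s) (e : ℕ) (y : P.ι → ℝ) : (flt P).ln e y = P.ln e y := by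
  refine (qq_conj _ _ _).trans ?_
  rw [bd_LP.mask (· = e), h.ps]
  rfl

theorem Pre.ball (h : Pre P tr s) (j : ℕ) (y : P.ι → ℝ) : (flt P).Ball j y ↔ P.Ball j y := by
  simp only [Tow.Ball, h.ln]

theorem dm_flt (e : ℕ) : (flt P).dm e = P.dm e := rfl

theorem bk_flt (hb : Bd P.lv P.lv P.G) (p : ℕ → Prop) [DecidablePred p] :
    (bk (flt P).G fun a => p (P.lv a)) = (bk (LP P) fun a => p (P.lv a))ᵀ *
      (bk P.G fun a => p (P.lv a)) * bk (LP P) fun a => p (P.lv a) :=
  ((bd_LP.tr.mul hb).sub_mul' _ p _).trans (congrArg (· * _) (bd_LP.tr.sub_mul' _ p _))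

theorem Pre.det_bk (h : Pre P tr s) (p : P.ι → Prop) [DecidablePred p] : (bk (LP P) p).det = 1 :=
  Uni.det (lv := fun a => tr a.1) fun a b e => (h.uni a b e).trans (by
    simp only [one_apply, Subtype.ext_iff])

theorem Pre.yy (h : Pre P tr s) (N : ℝ) (e : ℕ) : (flt P).yy N e = P.yy N e := by
  have := congrArg det (bk_flt h.blk (· = e))
  rw [det_mul, det_mul, det_transpose, h.det_bk, one_mul, mul_one] at this
  exact congrArg (fun x => Real.log x / 2 + _) this

theorem Pre.ok0 (h : Pre P tr s) : (flt P).Ok0 s := by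
  classical
  have hb := bd_LP.inv h.unit
  refine ⟨h.pos, h.le, fun a => IsWeightedHomogeneous.sum _ _ _ fun b _ => ?_, fun a j hj => ?_,
    h.uni.posDef h.pd, (bd_LP.tr.mul h.blk).mul bd_LP, h.el1⟩
  · by_cases e : P.lv a = P.lv b
    · have : (kil P.lv (P.lv b) (P.q b)).IsWeightedHomogeneous P.lv (P.lv b) :=
        wh_bind (h.hom b) fun c => by
          split_ifs
          exacts [isWeightedHomogeneous_zero _ _ _, isWeightedHomogeneous_X _ _ c]
      exact fun β c => (this.C_mul _ c).trans e.symm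
    · rw [hb a b e, C_0, zero_mul]
      exact isWeightedHomogeneous_zero _ _ _
  · obtain ⟨b, -, k⟩ := mem_biUnion.1 (vars_sum_subset _ _ hj)
    by_cases e : P.lv a = P.lv b
    · have h1 := vars_kil (by simpa using vars_mul _ _ k : j ∈ (kil P.lv (P.lv b) (P.q b)).vars)
      exact e ▸ lt_of_le_of_ne (wh_vars (h.hom b) h1.1) h1.2
    · simp [hb a b e] at k

theorem Pre.ok (h : Pre P tr s) (h1 : Bd tr tr P.G) (h2 : ∀ a, tr a ≠ 0 → P.el a = 0)
    (h3 : ∀ z : P.ι → ℤ, z ≠ 0 → P.el ⬝ᵥ z = 0 → 1 ≤ qq P.G (toR z))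
    (h4 : ∀ x : P.ι → ℝ, (toR P.el ⬝ᵥ x) ^ 2 ≤ N ^ 2 * qq P.G x) : (flt P).Ok s N := by
  classical
  have e : ∀ (x : P.ι → ℝ) (i : ℕ), (∀ a, tr a < i → x a = 0) →
      qq P.G (fun a => if tr a = i then x a else 0) ≤ qq (flt P).G x := fun x i hx => by
    refine le_trans (le_of_eq (congrArg _ (funext fun a => ?_)))
      ((qq_mask_le h.pd h1 (· = i) (LP P *ᵥ x)).trans_eq (qq_conj _ _ _).symm)
    split_ifs with k
    · rw [← one_mulVec x, mulVec_mulVec, mul_one]
      refine sum_congr rfl fun b _ => ?_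
      by_cases c : tr b < tr a
      · simp only [hx b (k ▸ c), mul_zero]
      · exact congrArg (· * x b) (h.uni a b c).symm
    · rfl
  refine h.ok0.ok (fun z hz he => ?_) fun x => ?_
  · have hn : ∃ i, ∃ a, tr a = i ∧ z a ≠ 0 := by
      obtain ⟨a, ha⟩ := Function.ne_iff.1 hz
      exact ⟨_, a, rfl, ha⟩
    obtain ⟨a, a1, a2⟩ := Nat.find_spec hn
    refine le_trans ?_ (e (toR z) (Nat.find hn) fun b hb => Int.cast_eq_zero.2
      (by_contra fun c => Nat.find_min hn hb ⟨b, rfl, c⟩))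
    refine (h3 (fun b => if tr b = Nat.find hn then z b else 0) (Function.ne_iff.2
      ⟨a, by simpa [a1] using a2⟩) ?_).trans_eq (congrArg _ (funext fun b => by
        simp [apply_ite (Int.cast : ℤ → ℝ)]))
    by_cases c : Nat.find hn = 0
    · refine Eq.trans (sum_congr rfl fun b _ => ?_) he
      beta_reduce
      split_ifs with k
      exacts [rfl, by simp only [h2 b (c ▸ k), zero_mul]]
    · refine sum_eq_zero fun b _ => ?_
      beta_reduce
      split_ifs with k
      exacts [by simp only [h2 b (k ▸ c), zero_mul], mul_zero _]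
  · refine le_trans (le_of_eq (congrArg (· ^ 2) (sum_congr rfl fun b _ => ?_))) ((h4 _).trans
      (mul_le_mul_of_nonneg_left (e x 0 fun _ k => absurd k (Nat.not_lt_zero _)) (sq_nonneg N)))
    split_ifs with k
    exacts [rfl, by simp [h2 b k]]

theorem Pre.inv_row (h : Pre P tr s) {a : P.ι} (ha : ∀ b, P.lin P.lv P.q a b = 0) (b : P.ι) :
    (LP P)⁻¹ a b = if a = b then 1 else 0 := by
  rw [← one_apply, ← mul_nonsing_inv _ h.unit, LP, sub_mul, one_mul, Matrix.sub_apply, mul_apply]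
  simp [ha]

/-- coordinates without terms of the same level keep their polynomials -/
theorem Pre.q_eq (h : Pre P tr s) {a : P.ι} (ha : ∀ b ∈ (P.q a).vars, P.lv b ≠ P.lv a) :
    (flt P).q a = P.q a := by
  classical
  have : ∀ b, P.lin P.lv P.q a b = 0 := fun b => ite_eq_right_iff.2 fun k => by_contra fun c =>
    ha b ((mem_vars b).2 ⟨_, mem_support_iff.2 c, by simp⟩) k
  simp only [h.inv_row this, apply_ite C, C_1, C_0, ite_mul, one_mul, zero_mul, sum_ite_eq, mem_univ,
    if_true, kil_eq ha]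

theorem G_flt {a b : P.ι} (ha : ∀ c, P.lin P.lv P.q c a = 0) (hb : ∀ c, P.lin P.lv P.q c b = 0) :
    (flt P).G a b = P.G a b := by
  simp [LP, mul_apply, ha, hb, one_apply]

variable {Z : Sys P W S}

theorem coeff_top (hZ : Z.Ok) (o : Option S) {a b : P.ι} (e : P.lv b = P.lv a) :
    coeff (Finsupp.single b 1) (Z.fam.fn o a) = C (coeff (Finsupp.single b 1) (P.q a)) := by
  classical
  rw [← hZ.top, ← hZ.fam.top_eq o, coeff_map]
  ext μ
  rw [coeff_C]
  split_ifs with k
  · rw [← k]; rfl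
  · by_contra c
    have := hZ.fam.hom o a _ _ c
    rw [Finsupp.weight_single, one_smul, e, add_eq_left, Finsupp.degree_eq_zero_iff] at this
    exact k this.symm

theorem Pre.okS (h : Pre P tr s) (hZ : Z.Ok) : (fltS Z).Ok := by
  have hb := bd_LP.inv h.unit
  refine ⟨⟨fun o a => JH.sum _ fun b _ => ?_, fun t a => ?_⟩, fun a => ?_⟩
  · by_cases e : P.lv a = P.lv b
    · have h1 : JH P.lv (kil P.lv (P.lv b) (Z.fam.fn o b)) (P.lv b) :=
        JH.bind (hZ.fam.hom o b) fun c => by
          split_ifs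
          exacts [JH.zero _ _, JH.X _ c]
      have := (JH.C (isHomogeneous_C (Option W) ((LP P)⁻¹ a b))).mul h1
      rw [zero_add] at this
      exact fun β μ c => (this β μ c).trans e.symm
    · rw [hb a b e, C_0, C_0, zero_mul]
      exact JH.zero _ _
  · simp only [fltS, map_sum, map_mul, map_kil, hZ.fam.pure, map_C]
  · have : ∀ b, MvPolynomial.map constantCoeff (Z.fam.fn none b) = P.q b := hZ.top
    simp only [Fam.top, fltS, map_sum, map_mul, map_kil, this, map_C, constantCoeff_C]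

theorem Pre.fn_eq (h : Pre P tr s) (hZ : Z.Ok) (o : Option S) {a : P.ι}
    (ha : ∀ b ∈ (P.q a).vars, P.lv b ≠ P.lv a) : (fltS Z).fam.fn o a = Z.fam.fn o a := by
  classical
  have : ∀ b, P.lin P.lv P.q a b = 0 := fun b => ite_eq_right_iff.2 fun k => by_contra fun c =>
    ha b ((mem_vars b).2 ⟨_, mem_support_iff.2 c, by simp⟩) k
  simp only [fltS, h.inv_row this, apply_ite C, C_1, C_0, ite_mul, one_mul, zero_mul, sum_ite_eq,
    mem_univ, if_true]
  refine kil_eq fun b hb e => ?_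
  obtain ⟨β, h1, h2⟩ := (mem_vars b).1 hb
  have h3 := (JH.coeff (hZ.fam.hom o a) h1).1
  obtain rfl := eq_single_of_weight h.pos h2 (le_antisymm (h3.trans e.ge)
    (Finsupp.le_weight_of_ne_zero' P.lv (Finsupp.mem_support_iff.1 h2)))
  refine mem_support_iff.1 h1 ?_
  rw [coeff_top hZ o e, show coeff (Finsupp.single b 1) (P.q a) = 0 from (if_pos e).symm.trans
    (this b), C_0]

theorem Pre.keyS (h : Pre P tr s) (hZ : Z.Ok) (o : Option S) (y : P.ι → Lam ℝ W) (a : P.ι) :
    ∑ b, C (LP P a b) * (y b - eval y ((fltS Z).fam.fn o b)) = y a - eval y (Z.fam.fn o a) :=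
  h.key C (fun a β hβ => (JH.coeff (hZ.fam.hom o a) hβ).1) (fun _ _ => coeff_top hZ o) y a

variable [DecidableEq W]

theorem Pre.at (h : Pre P tr s) (hZ : Z.Ok) (o : Option S) (A : Finset W) (y : P.ι → ℝ) :
    (LP P *ᵥ fun b => y b - eval y ((fltS Z).fam.at' o A b)) =
      fun a => y a - eval y (Z.fam.at' o A a) := by
  funext a
  have := congrArg (evA A) (h.keyS hZ o (fun b => C (y b)) a)
  simp only [map_sum, map_mul, map_sub, evA_C, hom_eval] at this
  exact this

variable [Fintype W] [Fintype S] {cl : W → D} {m : ℕ}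

theorem Pre.psr (h : Pre P tr s) (hZ : Z.Ok) (x : Lb P cl S m → ℝ) :
    (fw cl S m (LP P) *ᵥ fun l => x l - (fltS Z).pr cl m x l) = x - Z.pr cl m x := by
  funext l
  have h1 := congrArg (altL l.fc) (h.keyS hZ l.bs (lift x l.bs) l.cd)
  rw [altL_sub, altL_lift, ← Fam.alt_eq, altL_sum] at h1
  rw [fw_mulVec bd_LP]
  refine Eq.trans (sum_congr rfl fun b _ => ?_) h1
  rw [altL_C_mul]
  by_cases k : P.lv l.cd = P.lv b
  · have g : P.lv b < m ∧ Set.InjOn cl l.fc ∧ l.bs.elim (l.fc.card = P.lv b)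
        fun _ => l.fc.card < P.lv b := by rw [← k]; exact l.2
    rw [altL_sub]
    exact congrArg _ ((dlt_pt _ (⟨(b, l.fc, l.bs), g⟩ : Lb P cl S m)).trans (congrArg₂ (· - ·)
      (altL_lift x ⟨(b, l.fc, l.bs), g⟩).symm ((fltS Z).fam.alt_eq x _ _ _)))
  · rw [bd_LP _ _ k, zero_mul, zero_mul]

theorem gam_flt : Gam (flt P) cl S m = (fw cl S m (LP P))ᵀ * Gam P cl S m * fw cl S m (LP P) := by
  rw [fw_tr, gam_fw (T := P), ← fw_tr, ← transpose_transpose (fw cl S m P.G), ← transpose_mul,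
    fw_tr, fw_mul _ bd_LP, fw_tr, fw_mul _ bd_LP, transpose_mul, transpose_transpose]
  rfl

theorem Pre.det_fw (h : Pre P tr s) : (fw cl S m (LP P)).det = 1 := by
  refine Uni.det (lv := fun l => tr l.cd) fun l u e => ?_
  simp only [fw, of_apply, h.uni _ _ e, one_apply]
  by_cases k : l = u
  · simp [k]
  · rw [if_neg k]
    split_ifs with k1 k2
    exacts [absurd (Lb.ext' k2 k1.1 k1.2) k, rfl, rfl]

theorem Pre.qq_ps (h : Pre P tr s) (hZ : Z.Ok) (z : Lb P cl S m → ℤ) :
    qq (Gam (flt P) cl S m) ((fltS Z).ps cl m z) = qq (Gam P cl S m) (Z.ps cl m z) :=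
  (congrArg (qq · _) gam_flt).trans ((qq_conj _ _ _).trans (congrArg _ (h.psr hZ (toR z))))

theorem Pre.qq_low (h : Pre P tr s) (hZ : Z.Ok) (z : Lb P cl S m → ℤ) (p : ℕ → Prop)
    [DecidablePred p] :
    qq (Gam (flt P) cl S m) (fun l => if p (P.lv l.cd) then (fltS Z).ps cl m z l else 0) =
      qq (Gam P cl S m) fun l => if p (P.lv l.cd) then Z.ps cl m z l else 0 :=
  (congrArg (qq · _) gam_flt).trans ((qq_conj _ _ _).trans (congrArg _
    (((bd_fw bd_LP).mask p _).trans (funext fun l => if_congr Iff.rfl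
      (congrFun (h.psr hZ (toR z)) l) rfl))))

theorem Pre.nrm (h : Pre P tr s) (hZ : Z.Ok) (z : Lb P cl S m → ℤ) :
    (fltS Z).nrm cl m z = Z.nrm cl m z := congrArg Real.sqrt (h.qq_ps hZ z)

theorem Pre.w (h : Pre P tr s) (hZ : Z.Ok) (z : Lb P cl S m → ℤ) :
    (fltS Z).w cl m z = Z.w cl m z :=
  (congrArg (ng · _) gam_flt).trans ((ng_conj h.det_fw _ _).trans (congrArg _ (h.psr hZ (toR z))))

theorem Pre.F (h : Pre P tr s) (hZ : Z.Ok) (f : ℤ → ℝ) (z : Lb P cl S m → ℤ) (A : Finset W) (t : S) :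
    (fltS Z).F cl m f z A t = Z.F cl m f z A t := by
  refine tsum_congr fun y => congrArg (· * _) ((congrArg (ng · _) (bk_flt h.blk (m ≤ ·))).trans
    ((ng_conj (h.det_bk _) _ _).trans (congrArg _ (funext fun a => ?_))))
  have e : ∀ a : {a // m ≤ P.lv a}, toR (Sys.full cl m z A t y) a = y a := fun a =>
    congrArg Int.cast (dif_pos a.2)
  have h1 := congrFun (h.at hZ (some t) A (toR (Sys.full cl m z A t y))) a
  rw [e] at h1
  refine Eq.trans ?_ h1
  simp only [mulVec, dotProduct]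
  rw [← Fintype.sum_subtype_add_sum_subtype (fun x => m ≤ P.lv x), sum_eq_zero (s := univ)
    (f := fun x : {x // ¬m ≤ P.lv x} => _) fun x _ => mul_eq_zero_of_left
      (bd_LP _ _ fun c => x.2 (c ▸ a.2)) _, add_zero]
  exact sum_congr rfl fun b _ => by rw [e]; rfl

end

end Vale.Agent.P057AD
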