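import Vale.Agent.P057AD.Tow
import Vale.Agent.P057TP.Alg3

/-! Labels and Gram matrices of the tower with new coordinates. -/

set_option linter.all false

open Matrix Finset MvPolynomial
open Vale.Agent.P267.H775 Vale.Agent.P057G Vale.Agent.P057PC Vale.Agent.P057TP

namespace Vale.Agent.P057AD

noncomputable section

variable {D W S : Type} {cl : W → D} {m : ℕ} {T T' T'' : Tow}

open Classical in
/-- a matrix on coordinates repeated on every face -/
def fw (cl : W → D) (S : Type) (m : ℕ) (A : Matrix T.ι T'.ι ℝ) :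
    Matrix (Lb T cl S m) (Lb T' cl S m) ℝ :=
  Matrix.of fun l l' => if l.fc = l'.fc ∧ l.bs = l'.bs then A l.cd l'.cd else 0

theorem gam_fw : Gam T cl S m = fw cl S m T.G := rfl

theorem fw_tr (A : Matrix T.ι T'.ι ℝ) : (fw cl S m A)ᵀ = fw cl S m Aᵀ := by
  ext l l'
  exact @if_congr _ _ _ (_) (_) _ _ _ _ (and_congr eq_comm eq_comm) rfl rfl

theorem fw_add (A B : Matrix T.ι T'.ι ℝ) : fw cl S m (A + B) = fw cl S m A + fw cl S m B := by
  ext l l'
  simp only [fw, Matrix.add_apply, of_apply]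
  split_ifs <;> simp

theorem fw_neg (A : Matrix T.ι T'.ι ℝ) : fw cl S m (-A) = -fw cl S m A := by
  ext l l'
  simp only [fw, Matrix.neg_apply, of_apply]
  split_ifs <;> simp

variable [Fintype W] [DecidableEq W] [Fintype S]

theorem fw_mul (A : Matrix T.ι T'.ι ℝ) {B : Matrix T'.ι T''.ι ℝ} (h : Bd T'.lv T''.lv B) :
    fw cl S m A * fw cl S m B = fw cl S m (A * B) := by
  classical
  ext l l'
  simp only [fw, mul_apply, of_apply]
  split_ifs with e
  · rw [← sum_subset (filter_subset (fun u : Lb T' cl S m => u.fc = l'.fc ∧ u.bs = l'.bs) _)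
      fun u _ hu => mul_eq_zero_of_right _ (if_neg fun k => hu (mem_filter.2 ⟨mem_univ _, k⟩))]
    refine sum_of_injOn Lb.cd (fun u hu v hv k => ?_) (fun _ _ => mem_univ _) (fun b _ hb => ?_)
      fun u hu => ?_
    · have h1 := (mem_filter.1 hu).2
      have h2 := (mem_filter.1 hv).2
      exact Lb.ext' k (h1.1.trans h2.1.symm) (h1.2.trans h2.2.symm)
    · refine mul_eq_zero_of_right _ (h _ _ fun k => hb ⟨⟨(b, l'.fc, l'.bs), ?_⟩,
        mem_filter.2 ⟨mem_univ _, rfl, rfl⟩, rfl⟩)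
      simp only [k]
      exact l'.2
    · have h1 := (mem_filter.1 hu).2
      rw [if_pos h1, if_pos ⟨e.1.trans h1.1.symm, e.2.trans h1.2.symm⟩]
  · refine sum_eq_zero fun u _ => ?_
    split_ifs with h1 h2
    · exact absurd ⟨h1.1.trans h2.1, h1.2.trans h2.2⟩ e
    all_goals simp

theorem ren_inj {e : T.ι → T'.ι} (he : ∀ a, T'.lv (e a) = T.lv a) (hi : e.Injective) :
    (Lb.ren e he : Lb T cl S m → _).Injective := fun l l' k =>
  Lb.ext' (hi (congrArg Lb.cd k)) (congrArg Lb.fc k :) (congrArg Lb.bs k :)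

theorem mem_ren {e : T.ι → T'.ι} (he : ∀ a, T'.lv (e a) = T.lv a) {l : Lb T' cl S m} {a : T.ι}
    (h : l.cd = e a) : l ∈ Set.range (Lb.ren e he : Lb T cl S m → _) :=
  ⟨⟨(a, l.fc, l.bs), by simp only [← he, ← h]; exact l.2⟩, Lb.ext' h.symm rfl rfl⟩

theorem pt_ren {R : Type} [AddCommMonoid R] {e : T.ι → T'.ι} (he : ∀ a, T'.lv (e a) = T.lv a)
    (hi : e.Injective) (x : Lb T' cl S m → R) (o : Option S) (B : Finset W) (a : T.ι) :
    pt (x ∘ Lb.ren e he) o B a = pt x o B (e a) :=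
  Fintype.sum_of_injective _ (ren_inj he hi) _ _ (fun l hl => if_neg fun k => hl (mem_ren he k.1))
    fun l => @if_congr _ _ _ (_) (_) _ _ _ _ (and_congr_left' hi.eq_iff.symm) rfl rfl

variable {K : Type} [Fintype K] [DecidableEq K] {lk : K → ℕ} {Q : K → MvPolynomial T.ι ℝ}
  {Gk : Matrix K K ℝ}

/-- the new coordinates alone -/
abbrev tk (lk : K → ℕ) (Gk : Matrix K K ℝ) : Tow := ⟨K, lk, 0, Gk, 0⟩

/-- an old label -/
def il (l : Lb T cl S m) : Lb (T.add K lk Q Gk) cl S m :=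
  l.ren (T' := T.add K lk Q Gk) Sum.inl fun _ => rfl

/-- a new label -/
def ir (l : Lb (tk lk Gk) cl S m) : Lb (T.add K lk Q Gk) cl S m :=
  l.ren (T' := T.add K lk Q Gk) Sum.inr fun _ => rfl

/-- old and new labels -/
def eL (Q : K → MvPolynomial T.ι ℝ) :
    Lb T cl S m ⊕ Lb (tk lk Gk) cl S m ≃ Lb (T.add K lk Q Gk) cl S m :=
  Equiv.ofBijective (Sum.elim il ir) ⟨(ren_inj _ Sum.inl_injective).sumElim
    (ren_inj _ Sum.inr_injective) fun a b e => Sum.inl_ne_inr (congrArg Lb.cd e), fun l => by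
      rcases h : l.cd with a | k
      · obtain ⟨u, hu⟩ := mem_ren (T' := T.add K lk Q Gk) (e := Sum.inl) (fun _ => rfl) h
        exact ⟨Sum.inl u, hu⟩
      · obtain ⟨u, hu⟩ := mem_ren (T := tk lk Gk) (T' := T.add K lk Q Gk) (e := Sum.inr)
          (fun _ => rfl) h
        exact ⟨Sum.inr u, hu⟩⟩

theorem pt_il {R : Type} [AddCommMonoid R] (x : Lb (T.add K lk Q Gk) cl S m → R) (o : Option S)
    (B : Finset W) (a : T.ι) : pt (x ∘ il) o B a = pt x o B (Sum.inl a) :=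
  pt_ren (T' := T.add K lk Q Gk) (e := Sum.inl) (fun _ => rfl) Sum.inl_injective x o B a

theorem sub_il (z : Lb (T.add K lk Q Gk) cl S m → ℤ) :
    (Fam.ren W S Sum.inl).sub cl m z = z ∘ il :=
  funext fun l => sub_ren (T' := T.add K lk Q Gk) Sum.inl (fun _ => rfl) z l

/-- the shear on the labels -/
def LL (Q : K → MvPolynomial T.ι ℝ) : Matrix (Lb (tk lk Gk) cl S m) (Lb T cl S m) ℝ :=
  fw (T := tk lk Gk) cl S m (T.lin lk Q)

theorem gam_add (h4 : ∀ k k', lk k ≠ lk k' → Gk k k' = 0) :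
    (Gam (T.add K lk Q Gk) cl S m).submatrix (eL Q) (eL Q) =
      gad (Gam T cl S m) (Gam (tk lk Gk) cl S m) (LL Q) := by
  have e : ∀ A : Matrix (T.ι ⊕ K) (T.ι ⊕ K) ℝ,
      (fw (T := T.add K lk Q Gk) (T' := T.add K lk Q Gk) cl S m A).submatrix (eL Q) (eL Q) =
      fromBlocks (fw cl S m A.toBlocks₁₁) (fw (T' := tk lk Gk) cl S m A.toBlocks₁₂)
        (fw (T := tk lk Gk) cl S m A.toBlocks₂₁)
        (fw (T := tk lk Gk) (T' := tk lk Gk) cl S m A.toBlocks₂₂) := fun A => by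
    ext (l | l) (l' | l') <;> rfl
  refine (e (gad T.G Gk (T.lin lk Q))).trans ?_
  rw [gad_eq, gad_eq, toBlocks_fromBlocks₁₁, toBlocks_fromBlocks₁₂, toBlocks_fromBlocks₂₁,
    toBlocks_fromBlocks₂₂, fw_add, fw_neg, fw_neg, LL, fw_tr, gam_fw, gam_fw,
    fw_mul (T' := tk lk Gk) (T'' := tk lk Gk) _ h4, fw_mul (T' := tk lk Gk) _ bd_lin,
    fw_mul (T' := tk lk Gk) _ bd_lin]

end

end Vale.Agent.P057AD
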