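import Vale.Agent.P057AD.Add

/-! The positions of the new labels. -/

set_option linter.all false

open Matrix Finset MvPolynomial
open Vale.Agent.P267.H775 Vale.Agent.P057G Vale.Agent.P057PC Vale.Agent.P057TP

namespace Vale.Agent.P057AD

noncomputable section

theorem eq_single_of_weight {ι : Type} {lv : ι → ℕ} (hp : ∀ a, 0 < lv a) {β : ι →₀ ℕ} {b : ι}
    (hb : b ∈ β.support) (h : Finsupp.weight lv β = lv b) : β = Finsupp.single b 1 := by
  classical
  have h1 : β = Finsupp.single b 1 + (β - Finsupp.single b 1) :=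
    (add_tsub_cancel_of_le (Finsupp.single_le_iff.2
      (Nat.one_le_iff_ne_zero.2 (Finsupp.mem_support_iff.1 hb)))).symm
  rw [h1, map_add, Finsupp.weight_single, one_smul, add_eq_left] at h
  rw [h1, add_eq_left]
  ext a
  have := Finsupp.le_weight lv (hp a).ne' (β - Finsupp.single b 1)
  rw [h] at this
  exact Nat.le_zero.1 this

/-- a homogeneous polynomial is linear in the variables of top weight -/
theorem aeval_sub_lin {R A ι : Type} [CommRing R] [CommRing A] [Algebra R A] [Fintype ι]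
    {lv : ι → ℕ} (hp : ∀ a, 0 < lv a) {p : MvPolynomial ι R} {d : ℕ}
    (h : p.IsWeightedHomogeneous lv d) {g g' : ι → A} (e : ∀ b, lv b ≠ d → g b = g' b) :
    aeval g p = aeval g' p +
      ∑ b, (if lv b = d then coeff (Finsupp.single b 1) p else 0) • (g b - g' b) := by
  classical
  have key : ∀ β (r : R), Finsupp.weight lv β = d → aeval g (monomial β r) = aeval g' (monomial β r) +
      ∑ b, (if lv b = d then coeff (Finsupp.single b 1) (monomial β r) else 0) • (g b - g' b) := by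
    intro β r hβ
    by_cases k : ∃ b ∈ β.support, lv b = d
    · obtain ⟨b, h1, h2⟩ := k
      obtain rfl := eq_single_of_weight hp h1 (hβ.trans h2.symm)
      rw [sum_eq_single b (fun c _ hc => by
        simp [coeff_monomial, Finsupp.single_left_inj, hc.symm]) (by simp)]
      simp [aeval_monomial, h2, Algebra.smul_def, mul_sub]
    · rw [sum_eq_zero fun b _ => ?_, add_zero, aeval_monomial, aeval_monomial]
      · exact congrArg _ (Finsupp.prod_congr fun b hb => by rw [e b fun c => k ⟨b, hb, c⟩])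
      · split_ifs with c
        · rw [coeff_monomial, if_neg fun u => k ⟨b, by simp [u], c⟩, zero_smul]
        · exact zero_smul _ _
  conv_lhs => rw [p.as_sum, map_sum]
  conv_rhs => rw [p.as_sum, map_sum]
  rw [sum_congr rfl fun β hβ => key β _ (h (mem_support_iff.1 hβ)), sum_add_distrib, sum_comm]
  congr 1
  refine sum_congr rfl fun b _ => ?_
  rw [← sum_smul, coeff_sum]
  split_ifs <;> simp

variable {D W S : Type} [Fintype W] [DecidableEq W] [Fintype S] {cl : W → D} {m : ℕ} {T T' : Tow}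
  {s : ℕ} {N : ℝ} {K : Type} [Fintype K] [DecidableEq K] {lk : K → ℕ}
  {Q : K → MvPolynomial T.ι ℝ} {Gk : Matrix K K ℝ} {Z : Sys T W S}

/-- a matrix on faces acts on the alternating sums -/
theorem fw_mulVec {A : Matrix T.ι T'.ι ℝ} (h : Bd T.lv T'.lv A) (x : Lb T' cl S m → ℝ)
    (l : Lb T cl S m) :
    (fw cl S m A *ᵥ x) l = ∑ b, A l.cd b * dlt (fun B => pt x l.bs B b) l.fc := by
  classical
  simp only [fw, mulVec, dotProduct, of_apply]
  rw [← sum_subset (filter_subset (fun u : Lb T' cl S m => l.fc = u.fc ∧ l.bs = u.bs) _)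
    fun u _ hu => mul_eq_zero_of_left (if_neg fun k => hu (mem_filter.2 ⟨mem_univ _, k⟩)) _]
  refine sum_of_injOn Lb.cd (fun u hu v hv k => ?_) (fun _ _ => mem_univ _) (fun b _ hb => ?_)
    fun u hu => ?_
  · have h1 := (mem_filter.1 hu).2
    have h2 := (mem_filter.1 hv).2
    exact Lb.ext' k (h1.1.symm.trans h2.1) (h1.2.symm.trans h2.2)
  · refine mul_eq_zero_of_left (h _ _ fun k => hb ⟨⟨(b, l.fc, l.bs), ?_⟩,
      mem_filter.2 ⟨mem_univ _, rfl, rfl⟩, rfl⟩) _
    simp only [← k]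
    exact l.2
  · have h1 := (mem_filter.1 hu).2
    rw [if_pos h1, h1.1, h1.2, dlt_pt]

theorem bd_fw {A : Matrix T.ι T'.ι ℝ} (h : Bd T.lv T'.lv A) :
    Bd (fun l => T.lv l.cd) (fun l => T'.lv l.cd) (fw cl S m A) := fun l u e => by
  simp only [fw, of_apply, h _ _ e, ite_self]

/-- the family of the polynomials `Q` without lower order terms -/
def famQ (W S : Type) (lk : K → ℕ) (Gk : Matrix K K ℝ) (Q : K → MvPolynomial T.ι ℝ) :
    Fam ℝ (tk lk Gk).ι T.ι W S := ⟨fun _ k => MvPolynomial.map C (Q k)⟩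

/-- the centres of the new labels are the alternating sums of the values of `Q` -/
theorem cen_eq (hp : ∀ a, 0 < T.lv a) (h2 : ∀ k, (Q k).IsWeightedHomogeneous T.lv (lk k))
    (x : Lb T cl S m → ℝ) (l : Lb (tk lk Gk) cl S m) :
    (fam0 Z lk Q).alt (pt x) l.bs l.fc (Sum.inr l.cd) + (LL Q *ᵥ (x - Z.pr cl m x)) l =
      (famQ W S lk Gk Q).sb x l := by
  have e : ∀ g : T.ι → Lam ℝ W, eval g (MvPolynomial.map C (Q l.cd)) = aeval g (Q l.cd) :=
    fun g => by rw [eval_map]; rfl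
  rw [Fam.sb, Fam.alt_eq, Fam.alt_eq, LL, fw_mulVec (T := tk lk Gk) bd_lin]
  simp only [fam0, famQ, Sum.elim_inr, eval_bind, e]
  rw [aeval_sub_lin hp (h2 l.cd) (g := lift x l.bs) (g' := fun b => eval (lift x l.bs)
    (if T.lv b = lk l.cd then Z.fam.fn l.bs b else X b)) fun b hb => by rw [if_neg hb, eval_X],
    altL_add, altL_sum]
  congr 1
  refine sum_congr rfl fun b _ => ?_
  rw [smul_eq_C_mul, altL_C_mul, Tow.lin, of_apply]
  split_ifs with k
  · have h : T.lv b < m ∧ Set.InjOn cl l.fc ∧ l.bs.elim (l.fc.card = T.lv b)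
        fun _ => l.fc.card < T.lv b := by rw [k]; exact l.2
    rw [altL_sub, ← Fam.alt_eq]
    exact congrArg _ ((dlt_pt _ (⟨(b, l.fc, l.bs), h⟩ : Lb T cl S m)).trans
      (congrArg (· - _) (altL_lift x ⟨(b, l.fc, l.bs), h⟩).symm))
  · rw [zero_mul, zero_mul]

theorem cen_sb (hp : ∀ a, 0 < T.lv a) (h2 : ∀ k, (Q k).IsWeightedHomogeneous T.lv (lk k))
    (y : Lb T cl S m → ℤ) : cen (Gk := Gk) Z Q y = (famQ W S lk Gk Q).sb (toR y) :=
  funext fun l => cen_eq hp h2 (toR y) l

/-- the sheared positions of the new labels -/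
theorem ps_ir (hp : ∀ a, 0 < T.lv a) (h2 : ∀ k, (Q k).IsWeightedHomogeneous T.lv (lk k))
    {c : Lb (T.add K lk Q Gk) cl S m → ℝ} (hc : ∀ l a, l.cd = Sum.inl a → c l = 0)
    (z : Lb (T.add K lk Q Gk) cl S m → ℤ) :
    (Z.add K lk Q Gk c).ps cl m z ∘ ir - LL Q *ᵥ ((Z.add K lk Q Gk c).ps cl m z ∘ il) =
      toR (z ∘ ir) - ((famQ W S lk Gk Q).sb (toR (z ∘ il)) + c ∘ ir) := by
  have e : (Z.add K lk Q Gk c).ps cl m z ∘ il = Z.ps cl m (z ∘ il) := funext (ps_il hc z)
  rw [e, ← cen_sb (Z := Z) hp h2]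
  funext l
  simp only [Sys.ps, cen, Pi.sub_apply, Pi.add_apply, Function.comp_apply, pr_add]
  exact (fun a b d u : ℝ => (by ring : a - (b + d) - u = a - (d + u + b))) _ _ _ _

/-- the squared length on the system with new coordinates -/
theorem qq_ps (hp : ∀ a, 0 < T.lv a) (h2 : ∀ k, (Q k).IsWeightedHomogeneous T.lv (lk k))
    (h4 : ∀ k k', lk k ≠ lk k' → Gk k k' = 0) {c : Lb (T.add K lk Q Gk) cl S m → ℝ}
    (hc : ∀ l a, l.cd = Sum.inl a → c l = 0) (z : Lb (T.add K lk Q Gk) cl S m → ℤ) :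
    qq (Gam (T.add K lk Q Gk) cl S m) ((Z.add K lk Q Gk c).ps cl m z) =
      qq (Gam T cl S m) (Z.ps cl m (z ∘ il)) + qq (Gam (tk lk Gk) cl S m)
        (toR (z ∘ ir) - ((famQ W S lk Gk Q).sb (toR (z ∘ il)) + c ∘ ir)) := by
  rw [qq_gam h4, ps_ir hp h2 hc, ← funext (ps_il hc z)]
  rfl

/-- the same below a level -/
theorem qq_low (hp : ∀ a, 0 < T.lv a) (h2 : ∀ k, (Q k).IsWeightedHomogeneous T.lv (lk k))
    (h4 : ∀ k k', lk k ≠ lk k' → Gk k k' = 0) {c : Lb (T.add K lk Q Gk) cl S m → ℝ}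
    (hc : ∀ l a, l.cd = Sum.inl a → c l = 0) (z : Lb (T.add K lk Q Gk) cl S m → ℤ) (p : ℕ → Prop)
    [DecidablePred p] : qq (Gam (T.add K lk Q Gk) cl S m) (fun l =>
      if p ((T.add K lk Q Gk).lv l.cd) then (Z.add K lk Q Gk c).ps cl m z l else 0) =
      qq (Gam T cl S m) (fun l => if p (T.lv l.cd) then Z.ps cl m (z ∘ il) l else 0) +
        qq (Gam (tk lk Gk) cl S m) fun l => if p (lk l.cd) then
          (z (ir l) : ℝ) - ((famQ W S lk Gk Q).sb (toR (z ∘ il)) l + c (ir l)) else 0 := by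
  rw [qq_gam h4]
  congr 2
  · funext l
    exact if_congr Iff.rfl (ps_il hc z l) rfl
  · funext l
    have h := congrFun (ps_ir (Z := Z) hp h2 hc z) l
    change (if p (lk l.cd) then (Z.add K lk Q Gk c).ps cl m z (ir l) else (0 : ℝ)) - _ = _
    split_ifs with k
    · refine Eq.trans (congrArg _ (sum_congr rfl fun u _ => ?_)) h
      by_cases e : lk l.cd = T.lv u.cd
      · exact congrArg _ (if_pos (e ▸ k))
      · have : LL Q l u = 0 := bd_fw (T := tk lk Gk) bd_lin l u e
        simp only [this, zero_mul]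
    · refine (zero_sub _).trans (neg_eq_zero.2 (sum_eq_zero fun u _ => ?_))
      by_cases e : lk l.cd = T.lv u.cd
      · exact mul_eq_zero_of_right _ (if_neg (e ▸ k))
      · exact mul_eq_zero_of_left (bd_fw (T := tk lk Gk) bd_lin l u e) _

/-- the positions on the tower -/
theorem ps_add (hp : ∀ a, 0 < T.lv a) (h2 : ∀ k, (Q k).IsWeightedHomogeneous T.lv (lk k))
    (y : T.ι ⊕ K → ℝ) (k : K) : (T.add K lk Q Gk).ps y (Sum.inr k) -
      (T.lin lk Q *ᵥ T.ps (y ∘ Sum.inl)) k = y (Sum.inr k) - eval (y ∘ Sum.inl) (Q k) := by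
  have h := aeval_sub_lin hp (h2 k) (g := y ∘ Sum.inl) (g' := fun b => eval (y ∘ Sum.inl)
    (if T.lv b = lk k then T.q b else X b)) fun b hb => by rw [if_neg hb, eval_X]
  have e : (T.add K lk Q Gk).ps y (Sum.inr k) = y (Sum.inr k) - eval (fun b => eval (y ∘ Sum.inl)
      (if T.lv b = lk k then T.q b else X b)) (Q k) :=
    congrArg (y (Sum.inr k) - ·) ((eval_rename _ y _).trans (eval_bind _ _ _))
  rw [e, sub_sub]
  refine congrArg _ (Eq.trans (congrArg _ (sum_congr rfl fun b _ => ?_)) h.symm)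
  simp only [Tow.lin, of_apply, Tow.ps, smul_eq_mul]
  split_ifs <;> simp

/-- the length at one level on the tower -/
theorem ln_add (hp : ∀ a, 0 < T.lv a) (h2 : ∀ k, (Q k).IsWeightedHomogeneous T.lv (lk k))
    (e : ℕ) (y : T.ι ⊕ K → ℝ) : (T.add K lk Q Gk).ln e y = T.ln e (y ∘ Sum.inl) +
      qq Gk fun k => if lk k = e then y (Sum.inr k) - eval (y ∘ Sum.inl) (Q k) else 0 := by
  have h1 : ∀ a, (T.add K lk Q Gk).ps y (Sum.inl a) = T.ps (y ∘ Sum.inl) a := fun a =>
    congrArg (y (Sum.inl a) - ·) (eval_rename _ y _)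
  refine (qq_gad T.G Gk _ _).trans (congrArg₂ (· + ·) (congrArg _ (funext fun a =>
    if_congr Iff.rfl (h1 a) rfl)) (congrArg _ (funext fun k => ?_)))
  change (if lk k = e then (T.add K lk Q Gk).ps y (Sum.inr k) else (0 : ℝ)) - _ = _
  split_ifs with c
  · refine Eq.trans (congrArg _ (sum_congr rfl fun u _ => ?_)) (ps_add (Gk := Gk) hp h2 y k)
    by_cases e : lk k = T.lv u
    · exact congrArg _ ((if_pos (e ▸ c)).trans (h1 u))
    · simp only [bd_lin _ _ e, zero_mul]
  · refine (zero_sub _).trans (neg_eq_zero.2 (sum_eq_zero fun u _ => ?_))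
    by_cases e : lk k = T.lv u
    · exact mul_eq_zero_of_right _ (if_neg (e ▸ c))
    · exact mul_eq_zero_of_left (bd_lin _ _ e) _

end

end Vale.Agent.P057AD
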