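import Vale.Agent.P057TP.Alg1
import Vale.Agent.P057GH.Pb

/-! New coordinates on a tower. -/

set_option linter.all false

open Matrix Finset MvPolynomial
open Vale.Agent.P267.H775 Vale.Agent.P057G Vale.Agent.P057PC Vale.Agent.P057TP

namespace Vale.Agent.P057AD

noncomputable section

/-- substitution of weighted homogeneous polynomials -/
theorem wh_bind {R ι κ : Type} [CommRing R] {lv : ι → ℕ} {lw : κ → ℕ} {p : MvPolynomial ι R}
    {d : ℕ} (hp : p.IsWeightedHomogeneous lv d) {g : ι → MvPolynomial κ R}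
    (hg : ∀ a, (g a).IsWeightedHomogeneous lw (lv a)) :
    (bind₁ g p).IsWeightedHomogeneous lw d := by
  rw [p.as_sum, map_sum]
  refine IsWeightedHomogeneous.sum _ _ _ fun β hβ => ?_
  rw [bind₁_monomial, ← hp (mem_support_iff.1 hβ), Finsupp.weight_apply, Finsupp.sum]
  exact (IsWeightedHomogeneous.prod _ _ _ fun a _ => (hg a).pow _).C_mul _

theorem wh_rename {R ι κ : Type} [CommRing R] {lv : ι → ℕ} {lw : κ → ℕ} {p : MvPolynomial ι R}
    {d : ℕ} (hp : p.IsWeightedHomogeneous lv d) {e : ι → κ} (he : ∀ a, lw (e a) = lv a) :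
    (rename e p).IsWeightedHomogeneous lw d := by
  rw [rename_eq_aeval]
  exact wh_bind hp (g := X ∘ e) fun a => he a ▸ isWeightedHomogeneous_X R lw (e a)

theorem wh_vars {R ι : Type} [CommRing R] {lv : ι → ℕ} {p : MvPolynomial ι R} {d : ℕ}
    (hp : p.IsWeightedHomogeneous lv d) {a : ι} (ha : a ∈ p.vars) : lv a ≤ d := by
  classical
  obtain ⟨β, h1, h2⟩ := (mem_vars a).1 ha
  rw [← hp (mem_support_iff.1 h1)]
  exact Finsupp.le_weight_of_ne_zero' lv (Finsupp.mem_support_iff.1 h2)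

section blocks

variable {ι κ ν τ : Type}

/-- a matrix that respects the levels -/
def Bd (lv : ι → τ) (lw : κ → τ) (A : Matrix ι κ ℝ) : Prop := ∀ i j, lv i ≠ lw j → A i j = 0

theorem Bd.tr {lv : ι → τ} {lw : κ → τ} {A : Matrix ι κ ℝ} (h : Bd lv lw A) : Bd lw lv Aᵀ :=
  fun i j e => h j i e.symm

theorem Bd.mul [Fintype κ] {lv : ι → τ} {lw : κ → τ} {lu : ν → τ} {A : Matrix ι κ ℝ}
    {B : Matrix κ ν ℝ} (h : Bd lv lw A) (k : Bd lw lu B) : Bd lv lu (A * B) := fun i j e =>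
  sum_eq_zero fun x _ => by
    by_cases c : lv i = lw x
    · exact mul_eq_zero_of_right _ (k x j (c ▸ e))
    · exact mul_eq_zero_of_left (h i x c) _

theorem Bd.sub_mul [Fintype κ] {lv : ι → τ} {lw : κ → τ} {A : Matrix ι κ ℝ} (h : Bd lv lw A)
    (B : Matrix κ ν ℝ) (e : τ) [DecidablePred fun x => lw x = e] {μ : Type} (f : μ → ν) :
    (A * B).submatrix (Subtype.val : {i // lv i = e} → ι) f =
      A.submatrix Subtype.val (Subtype.val : {x // lw x = e} → κ) * B.submatrix Subtype.val f := by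
  ext i j
  simp only [submatrix_apply, mul_apply]
  rw [← Fintype.sum_subtype_add_sum_subtype (fun x => lw x = e), add_eq_left]
  exact sum_eq_zero fun x _ => by rw [h i x fun c => x.2 (c.symm.trans i.2), zero_mul]

variable [Fintype ι] [DecidableEq ι] [Fintype κ] [DecidableEq κ]

/-- the shear -/
def shr (L : Matrix κ ι ℝ) : Matrix (ι ⊕ κ) (ι ⊕ κ) ℝ := fromBlocks 1 0 (-L) 1

/-- the Gram matrix after the shear -/
def gad (G : Matrix ι ι ℝ) (K : Matrix κ κ ℝ) (L : Matrix κ ι ℝ) : Matrix (ι ⊕ κ) (ι ⊕ κ) ℝ :=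
  (shr L)ᵀ * fromBlocks G 0 0 K * shr L

theorem det_shr (L : Matrix κ ι ℝ) : (shr L).det = 1 := by
  rw [shr, det_fromBlocks_zero₁₂, det_one, det_one, one_mul]

theorem shr_inl (L : Matrix κ ι ℝ) (v : ι ⊕ κ → ℝ) : (shr L *ᵥ v) ∘ Sum.inl = v ∘ Sum.inl := by
  rw [shr, fromBlocks_mulVec]; simp

theorem shr_inr (L : Matrix κ ι ℝ) (v : ι ⊕ κ → ℝ) :
    (shr L *ᵥ v) ∘ Sum.inr = v ∘ Sum.inr - L *ᵥ (v ∘ Sum.inl) := by
  rw [shr, fromBlocks_mulVec]; simp [neg_mulVec, neg_add_eq_sub]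

theorem qq_gad (G : Matrix ι ι ℝ) (K : Matrix κ κ ℝ) (L : Matrix κ ι ℝ) (v : ι ⊕ κ → ℝ) :
    qq (gad G K L) v = qq G (v ∘ Sum.inl) + qq K (v ∘ Sum.inr - L *ᵥ (v ∘ Sum.inl)) := by
  rw [gad, qq_conj, qq_blocks, shr_inl, shr_inr]

theorem ng_gad {G : Matrix ι ι ℝ} (hG : G.PosDef) (K : Matrix κ κ ℝ) (L : Matrix κ ι ℝ)
    (v : ι ⊕ κ → ℝ) :
    ng (gad G K L) v = ng G (v ∘ Sum.inl) * ng K (v ∘ Sum.inr - L *ᵥ (v ∘ Sum.inl)) := by
  rw [gad, ng_conj (det_shr L), ng_blocks hG, shr_inl, shr_inr]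

theorem qq_le_gad (G : Matrix ι ι ℝ) {K : Matrix κ κ ℝ} (hK : K.PosDef) (L : Matrix κ ι ℝ)
    (v : ι ⊕ κ → ℝ) : qq G (v ∘ Sum.inl) ≤ qq (gad G K L) v := by
  rw [qq_gad]; exact le_add_of_nonneg_right (qq_nonneg hK.posSemidef _)

theorem pd_gad {G : Matrix ι ι ℝ} (hG : G.PosDef) {K : Matrix κ κ ℝ} (hK : K.PosDef)
    (L : Matrix κ ι ℝ) : (gad G K L).PosDef := by
  refine posDef_conj (posDef_blocks hG hK) _ (mulVec_injective_iff_isUnit.2 ?_)
  rw [isUnit_iff_isUnit_det, det_shr]; exact isUnit_one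

theorem det_gad (G : Matrix ι ι ℝ) (K : Matrix κ κ ℝ) (L : Matrix κ ι ℝ) :
    (gad G K L).det = G.det * K.det := by
  rw [gad, det_mul, det_mul, det_transpose, det_shr, det_fromBlocks_zero₂₁, one_mul, mul_one]

theorem gad_eq (G : Matrix ι ι ℝ) (K : Matrix κ κ ℝ) (L : Matrix κ ι ℝ) :
    gad G K L = fromBlocks (G + Lᵀ * K * L) (-(Lᵀ * K)) (-(K * L)) K := by
  simp [gad, shr, fromBlocks_transpose, fromBlocks_multiply]

theorem bd_gad {lv : ι → τ} {lk : κ → τ} {G : Matrix ι ι ℝ} {K : Matrix κ κ ℝ} {L : Matrix κ ι ℝ}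
    (hG : Bd lv lv G) (hK : Bd lk lk K) (hL : Bd lk lv L) :
    Bd (Sum.elim lv lk) (Sum.elim lv lk) (gad G K L) := by
  rw [gad_eq]
  rintro (i | i) (j | j) e
  · simp [hG i j e, (hL.tr.mul hK).mul hL i j e]
  · simp [hL.tr.mul hK i j e]
  · simp [hK.mul hL i j e]
  · exact hK i j e

/-- the diagonal block of one level -/
theorem bk_gad {lv : ι → τ} {lk : κ → τ} (G : Matrix ι ι ℝ) {K : Matrix κ κ ℝ} {L : Matrix κ ι ℝ}
    (hK : Bd lk lk K) (hL : Bd lk lv L) (e : τ) [DecidablePred fun x => lv x = e]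
    [DecidablePred fun x => lk x = e] :
    (bk (gad G K L) fun x => Sum.elim lv lk x = e).submatrix Equiv.subtypeSum.symm
      Equiv.subtypeSum.symm = gad (bk G fun x => lv x = e) (bk K fun x => lk x = e)
        (L.submatrix Subtype.val Subtype.val) := by
  have h1 := hL.tr.sub_mul K e (Subtype.val : {x // lk x = e} → κ)
  have h2 := hK.sub_mul L e (Subtype.val : {x // lv x = e} → ι)
  have h3 := (hL.tr.mul hK).sub_mul L e (Subtype.val : {x // lv x = e} → ι)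
  rw [h1] at h3
  rw [gad_eq, gad_eq]
  ext (i | i) (j | j)
  · exact congrArg (G i j + ·) (congrFun (congrFun h3 i) j)
  · exact congrArg (-·) (congrFun (congrFun h1 i) j)
  · exact congrArg (-·) (congrFun (congrFun h2 i) j)
  · rfl

end blocks

variable {T : Tow} {s : ℕ} {N : ℝ} {K : Type} [Fintype K] [DecidableEq K] {lk : K → ℕ}
  {Q : K → MvPolynomial T.ι ℝ} {Gk : Matrix K K ℝ}

theorem add_G : (T.add K lk Q Gk).G = gad T.G Gk (T.lin lk Q) := rfl

theorem dot_inl {R : Type} [CommRing R] (u : T.ι → R) (v : T.ι ⊕ K → R) :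
    Sum.elim u 0 ⬝ᵥ v = u ⬝ᵥ (v ∘ Sum.inl) := by simp [dotProduct]

theorem dot_inl' (u : T.ι → ℤ) (v : T.ι ⊕ K → ℝ) :
    toR (Sum.elim u 0) ⬝ᵥ v = toR u ⬝ᵥ (v ∘ Sum.inl) := by simp [dotProduct]

theorem bd_lin : Bd lk T.lv (T.lin lk Q) := fun _ _ e => if_neg e.symm

theorem ok_add (hT : T.Ok s N) (h1 : ∀ k, 0 < lk k ∧ lk k ≤ s)
    (h2 : ∀ k, (Q k).IsWeightedHomogeneous T.lv (lk k)) (h3 : Gk.PosDef)
    (h4 : ∀ k k', lk k ≠ lk k' → Gk k k' = 0) (h5 : ∀ z : K → ℤ, z ≠ 0 → 1 ≤ qq Gk (toR z)) :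
    (T.add K lk Q Gk).Ok s N := by
  classical
  refine ⟨?_, ?_, ?_, ?_, pd_gad hT.pd h3 _, bd_gad hT.blk h4 bd_lin, ?_, fun z hz he => ?_,
    fun x => ?_⟩
  · rintro (a | k)
    exacts [hT.pos a, (h1 k).1]
  · rintro (a | k)
    exacts [hT.le a, (h1 k).2]
  · rintro (a | k)
    · exact wh_rename (hT.hom a) fun _ => rfl
    · refine wh_rename (wh_bind (h2 k) fun b => ?_) fun _ => rfl
      split_ifs
      exacts [hT.hom b, isWeightedHomogeneous_X _ _ b]
  · rintro (a | k) j hj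
    · obtain ⟨i, hi, rfl⟩ := mem_image.1 (vars_rename _ _ hj)
      exact hT.low a i hi
    · obtain ⟨i, hi, rfl⟩ := mem_image.1 (vars_rename _ _ hj)
      obtain ⟨b, hb, h⟩ := mem_biUnion.1 (vars_bind₁ _ _ hi)
      change T.lv i < lk k
      split_ifs at h with e
      · exact e ▸ hT.low b i h
      · rw [vars_X, mem_singleton] at h
        exact h ▸ lt_of_le_of_ne (wh_vars (h2 k) hb) e
  · rintro (a | k) e
    exacts [hT.el1 a e, rfl]
  · change T.ι ⊕ K → ℤ at z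
    by_cases e : z ∘ Sum.inl = 0
    · have e2 : toR z ∘ Sum.inl = 0 := funext fun a => Int.cast_eq_zero.2 (congrFun e a)
      refine le_of_le_of_eq ?_ (qq_gad T.G Gk _ (toR z)).symm
      rw [e2, qq_zero, zero_add, mulVec_zero, sub_zero]
      refine h5 (z ∘ Sum.inr) fun c => hz ?_
      funext x
      cases x
      exacts [congrFun e _, congrFun c _]
    · exact (hT.sep _ e ((dot_inl T.el z).symm.trans he)).trans (qq_le_gad T.G h3 _ (toR z))
  · exact le_trans (le_of_eq (congrArg (· ^ 2) (dot_inl' T.el x))) ((hT.elN (x ∘ Sum.inl)).trans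
      (mul_le_mul_of_nonneg_left (qq_le_gad T.G h3 _ x) (sq_nonneg N)))

/-- the upper levels are not changed -/
def eqv (T : Tow) {lk : K → ℕ} (Q : K → MvPolynomial T.ι ℝ) (Gk : Matrix K K ℝ) {m : ℕ}
    (h : ∀ k, lk k < m) : {a // m ≤ T.lv a} ≃ {a // m ≤ (T.add K lk Q Gk).lv a} :=
  Equiv.ofBijective (fun a => ⟨Sum.inl a.1, a.2⟩) ⟨fun a b e =>
    Subtype.ext (Sum.inl_injective (congrArg Subtype.val e)), by
      rintro ⟨a | k, e⟩
      exacts [⟨⟨a, e⟩, rfl⟩, absurd e (h k).not_ge]⟩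

theorem G_up {m : ℕ} (h : ∀ k, lk k < m) {a : T.ι} (ha : m ≤ T.lv a) (b : T.ι) :
    (T.add K lk Q Gk).G (Sum.inl a) (Sum.inl b) = T.G a b := by
  have : ∀ k, T.lin lk Q k a = 0 := fun k => bd_lin k a ((h k).trans_le ha).ne
  rw [add_G, gad_eq]
  simp [mul_apply, this]

theorem ap_inl (y : T.ι ⊕ K → ℝ) :
    ap (fun a : T.ι => (X (Sum.inl a) : MvPolynomial (T.ι ⊕ K) ℤ)) y = y ∘ Sum.inl := by
  funext a; simp [ap]

theorem mor_add (h3 : Gk.PosDef) (m : ℕ) : Mor m (T.add K lk Q Gk) T fun a => X (Sum.inl a) := by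
  refine ⟨fun a _ => isWeightedHomogeneous_X ℤ (T.add K lk Q Gk).lv (Sum.inl a),
    fun y hy e he => ?_, fun _ y => ?_⟩
  · refine le_trans (le_of_eq ?_) ((qq_le_gad T.G h3 _ _).trans (hy e he))
    refine (congrArg _ (ap_inl y)).trans (congrArg (qq T.G) (funext fun a => ?_))
    exact if_congr Iff.rfl (congrArg (y (Sum.inl a) - ·) (eval_rename _ y _).symm) rfl
  · exact (dot_inl' T.el y).trans (congrArg _ (ap_inl y).symm)

theorem up_add (h3 : Gk.PosDef) {m : ℕ} (h : ∀ k, lk k < m) : Up m (T.add K lk Q Gk) T :=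
  ⟨fun a => X (Sum.inl a), eqv T Q Gk h, mor_add h3 m, fun _ => rfl, fun _ => rfl,
    fun a y => (eval_rename _ y _).trans (congrArg (eval · (T.q a)) (ap_inl y).symm), fun a b => G_up h a.2 b, fun _ => rfl⟩

theorem dm_add (e : ℕ) :
    (T.add K lk Q Gk).dm e = T.dm e + (univ.filter fun k => lk k = e).card := by
  unfold Tow.dm
  rw [← Nat.cast_add, card_filter, card_filter, card_filter]
  exact congrArg _ (Fintype.sum_sum_type _)

theorem yy_add (hT : T.Ok s N) (h3 : Gk.PosDef) (h4 : ∀ k k', lk k ≠ lk k' → Gk k k' = 0) (e : ℕ) :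
    (T.add K lk Q Gk).yy N e = T.yy N e + Real.log (bk Gk fun k => lk k = e).det / 2 := by
  have h := (congrArg det (bk_gad T.G h4 (bd_lin (Q := Q)) e)).trans (det_gad _ _ _)
  rw [det_submatrix_equiv_self] at h
  have h' : (bk (T.add K lk Q Gk).G fun a => (T.add K lk Q Gk).lv a = e).det =
      (bk T.G fun x => T.lv x = e).det * (bk Gk fun x => lk x = e).det := h
  unfold Tow.yy
  rw [h', Real.log_mul (posDef_bk hT.pd _).det_pos.ne' (posDef_bk h3 _).det_pos.ne']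
  ring

end

end Vale.Agent.P057AD
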